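import Vale.Agent.P307.R2.H74.LLj
import Vale.Agent.P307.R2.H913.OdC
import Vale.Agent.P307.R2.H913.TrPch
import Vale.Agent.P307.R2.H806.LimPG
import Vale.Agent.P307.R2.H301.Din.Top

/-!
The limit lemma for independent pairs of models in the saturated member.
-/

set_option linter.unusedSectionVars false

universe u

open FirstOrder Cardinal Set

namespace Vale.Agent.P307.R2.H74

open Vale.Agent.P307 Vale.Agent.P307.H304 Vale.Agent.P307.R2.H287 Vale.Agent.P307.R2.H1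
  Vale.Agent.P307.R2.H971 Vale.Agent.P307.R2.H804 Vale.Agent.P307.R2.H541
  Vale.Agent.P307.R2.H541.PG Vale.Agent.P307.R2.H533 Vale.Agent.P307.R2.H650
  Vale.Agent.P307.R2.H913 Vale.Agent.P307.R2.H806 Language.Structure Language.Substructure
open Vale.Agent.P307.R2.H68 (Clo exists_clo Clo.mono Clo.iUnion exists_trace_ind)
open Vale.Agent.P307.R2.H301 (TrN TrB)

/-- Shrinking of the isolating sets, into the closed traces, for the atomic models over `X`. -/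
def SHA {C : Type u} (M : PG C) (τ : Cardinal.{u}) (X : Set C) : Prop :=
  ∀ N, M.Atomic N X → ∃ ψ : Finset C → Set C, (∀ s, #(ψ s) ≤ τ) ∧ ∀ H, Clo ψ H → #H ≤ τ →
    ∀ E ⊆ N ∩ H, #E < τ → ∃ B ⊆ X ∩ H, #B < τ ∧ M.Isol B X E

theorem SHA.of_trN {C : Type u} {M : PG C} {τ : Cardinal.{u}} {X : Set C} (hτ : τ ≤ M.χ)
    (h : ∀ N, M.Atomic N X → ∃ ψ, TrN M τ X N ψ) : SHA M τ X := by
  intro N hN
  obtain ⟨ψ, hψ⟩ := h N hN
  exact ⟨ψ, hψ.card, fun H hH hHc E hE hEc => hψ.shrink H hH hHc E hE hEc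
    (hN.iso E (hE.trans inter_subset_left) (hEc.trans_le hτ))⟩

theorem SHA.of_trB {C : Type u} {M : PG C} {τ : Cardinal.{u}} {X : Set C} (hτ : τ ≤ M.χ)
    (h : TrB M τ X) : SHA M τ X := by
  refine SHA.of_trN hτ fun N hN => ?_
  obtain ⟨R, h1, h2, h3⟩ := PG.exists_filtration hN.mem
  have hRN : ∀ n, R n ⊆ N := fun n => by
    rw [← h3]
    exact subset_iUnion R n
  obtain ⟨ψ, hψ⟩ := h R h1 h2 (by rw [h3]; exact hN.mem) (by rw [h3]; exact hN.sub)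
    fun n => hN.iso (R n) (hRN n) (M.T_card (h2 n))
  rw [h3] at hψ
  exact ⟨ψ, hψ⟩

section clo

variable {C : Type u} {τ : Cardinal.{u}}

/-- The common closure for two properties. -/
theorem exists_clo_and (hτ : ℵ₀ ≤ τ) {P Q : Set C → Prop}
    (h : ∃ φ : Finset C → Set C, (∀ s, #(φ s) ≤ τ) ∧ ∀ H, Clo φ H → #H ≤ τ → P H)
    (h' : ∃ φ : Finset C → Set C, (∀ s, #(φ s) ≤ τ) ∧ ∀ H, Clo φ H → #H ≤ τ → Q H) :
    ∃ φ : Finset C → Set C, (∀ s, #(φ s) ≤ τ) ∧ ∀ H, Clo φ H → #H ≤ τ → P H ∧ Q H := by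
  obtain ⟨φ, h1, h2⟩ := h
  obtain ⟨ψ, h3, h4⟩ := h'
  exact ⟨fun s => φ s ∪ ψ s, fun s => (mk_union_le _ _).trans (add_le_of_le hτ (h1 s) (h3 s)),
    fun H hH hHc => ⟨h2 H (clo_union hH).1 hHc, h4 H (clo_union hH).2 hHc⟩⟩

/-- The common closure for a sequence of properties. -/
theorem exists_clo_nat (hτ : ℵ₀ ≤ τ) {P : ℕ → Set C → Prop}
    (h : ∀ n, ∃ φ : Finset C → Set C, (∀ s, #(φ s) ≤ τ) ∧ ∀ H, Clo φ H → #H ≤ τ → P n H) :
    ∃ φ : Finset C → Set C, (∀ s, #(φ s) ≤ τ) ∧ ∀ H, Clo φ H → #H ≤ τ → ∀ n, P n H := by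
  choose φ h1 h2 using h
  refine ⟨fun s => ⋃ n : ULift.{u} ℕ, φ n.down s, fun s => ?_, fun H hH hHc n => ?_⟩
  · have h7 : #(ULift.{u} ℕ) ≤ τ := by
      rw [mk_uLift, mk_nat, lift_aleph0]
      exact hτ
    have h8 : ∀ n : ULift.{u} ℕ, #(φ n.down s) ≤ τ := fun n => h1 n.down s
    exact (mk_iUnion_le _).trans ((mul_le_mul' h7 (ciSup_le' h8)).trans (mul_eq_self hτ).le)
  · exact h2 n H (hH.mono fun s => subset_iUnion (fun n : ULift.{u} ℕ => φ n.down s) ⟨n⟩) hHc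

end clo

variable {L : Language.{u, u}} {K : AEC L} {ℓ Λ τ θ : Cardinal.{u}}
  {κf α : Cardinal.{u} → Cardinal.{u}} {C : Type u} [L.Structure C]

section

variable (h₀ : BasePt K ℓ κf α θ) (hK : K.IsLS ℓ)
  (hunb : ∀ ν, ν < κf ν ∧ K.CategoricalIn (κf ν)) (hst : Stab K ℓ α (H287.thr κf))
  (hCm : K.mem C) (hs : Sat K θ C) (hCc : #C = Order.succ θ)

/-- The atomic models over a model and an independent point, in all the saturated strong submodels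
of size `τ⁺`. -/
def PtAt (hK : K.IsLS ℓ) (hunb : ∀ ν, ν < κf ν ∧ K.CategoricalIn (κf ν))
    (hst : Stab K ℓ α (H287.thr κf)) (hτ : BasePt K ℓ κf α τ) (C : Type u) [L.Structure C] :
    Prop :=
  ∀ (C' : L.Substructure C) (hC' : K.le C') (hC'c : #C' = Order.succ τ) (hC's : Sat K τ C'),
    H650.Pt1 (pgLow hK hunb hst hτ hC' hC'c hC's)

/-- The closed traces of `N` are atomic over the closed traces of `X`, in all the saturated strong
submodels of size `τ⁺`. -/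
def TrAt (hK : K.IsLS ℓ) (hunb : ∀ ν, ν < κf ν ∧ K.CategoricalIn (κf ν))
    (hst : Stab K ℓ α (H287.thr κf)) (hτ : BasePt K ℓ κf α τ) {C : Type u} [L.Structure C]
    (X N : Set C) : Prop :=
  ∃ φ : Finset C → Set C, (∀ s, #(φ s) ≤ τ) ∧ ∀ H, Clo φ H → #H ≤ τ →
    ∀ (C' : L.Substructure C) (hC' : K.le C') (hC'c : #C' = Order.succ τ) (hC's : Sat K τ C'),
      H ⊆ C' → (pgLow hK hunb hst hτ hC' hC'c hC's).Atomic (tr (C' : Set C) (N ∩ H))
        (tr (C' : Set C) (X ∩ H))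

include h₀ hCm hs hCc in
theorem trAt_of_sha (hτ : BasePt K ℓ κf α τ) (hτθ : τ < θ) {X N : Set C}
    (h : SHA (pg h₀ hK hunb hst hCm hs hCc) τ X)
    (hN : (pg h₀ hK hunb hst hCm hs hCc).Atomic N X) : TrAt hK hunb hst hτ X N := by
  have hτ0 : ℵ₀ ≤ τ := aleph0_le_pt hτ hK
  obtain ⟨φ, h1, h2⟩ := exists_clo_and hτ0 (h N hN)
    (exists_clo_sm h₀ hK hunb hst hCm hs hCc hτ hτθ hN.mem)
  refine ⟨φ, h1, fun H hH hHc C' hC' hC'c hC's hHC => ?_⟩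
  obtain ⟨h3, h4⟩ := h2 H hH hHc
  have hL := pg_low h₀ hK hunb hst hCm hs hCc hτ hτθ hC' hC'c hC's
  have hNC : N ∩ H ⊆ (C' : Set C) := inter_subset_right.trans hHC
  refine Low.atomic_dn (M' := pgLow hK hunb hst hτ hC' hC'c hC's) hL
    (tr_mem hK hunb hst hτ hC' hC'c hC's h4 hNC) hNC
    (inter_subset_inter_left _ hN.sub) fun E hE hEc => ?_
  obtain ⟨B, h5, h6, h7⟩ := h3 E hE hEc
  exact ⟨B, h5, h6, (h7.toT hL.le).mono inter_subset_left⟩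

/-- The traces of an independent pair. -/
theorem exists_clo_ind (hτ : BasePt K ℓ κf α τ) (hτθ : τ < θ) {P A B : Set C}
    (hP : P ∈ (pg h₀ hK hunb hst hCm hs hCc).S)
    (hI : (pg h₀ hK hunb hst hCm hs hCc).Ind P A B) :
    ∃ φ : Finset C → Set C, (∀ s, #(φ s) ≤ τ) ∧ ∀ H, Clo φ H → #H ≤ τ →
      (pg h₀ hK hunb hst hCm hs hCc).IndT τ (P ∩ H) (A ∩ H) (B ∩ H) := by
  obtain ⟨φ, h1, h2⟩ := exists_trace_ind h₀ hK hunb hst hCm hs hCc hτ.pt.lt hτ.pow hτθ.le hP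
  refine ⟨φ, h1, fun H hH _ A' hA' hA'c B' hB' hB'c => ?_⟩
  refine (h2 H hH).2 A B hI A' ?_ hA'c B' (hB'.trans inter_subset_left) hB'c
  rw [union_inter_distrib_right]
  exact hA'

theorem pg_tm_pair (hτ : BasePt K ℓ κf α τ) {C' : L.Substructure C}
    (hC' : K.le C') (hC'c : #C' = Order.succ τ) (hC's : Sat K τ C') :
    ∀ P ∈ (pgLow hK hunb hst hτ hC' hC'c hC's).S, ∀ A ∈ (pgLow hK hunb hst hτ hC' hC'c hC's).S,
      ∀ B ∈ (pgLow hK hunb hst hτ hC' hC'c hC's).S, P ⊆ A → P ⊆ B →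
        (pgLow hK hunb hst hτ hC' hC'c hC's).Ind P A B →
          (pgLow hK hunb hst hτ hC' hC'c hC's).Tm (A ∪ B) :=
  fun _ hP _ hA _ hB hPA hPB hI =>
    pg_tm_two (C := C') hτ hK hunb hst (K.mem_of_le _ hC').1 hC's hC'c hP hA hB hPA hPB hI

/-- **The limit lemma for a model and an independent prime chain.** -/
theorem pg_LLJ (hΛ : BasePt K ℓ κf α Λ) (hθΛ : θ < Λ) (hτ : BasePt K ℓ κf α τ) (hτθ : τ < θ)
    (hCh : Chn (pg h₀ hK hunb hst hCm hs hCc)) (hCτ : ChnAt hK hunb hst hτ C)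
    (hPtτ : PtAt hK hunb hst hτ C) {P B : Set C} {J : Type u} [LinearOrder J] [WellFoundedLT J]
    {c : J → C} {Q : J → Set C} (hQ : PCh (pg h₀ hK hunb hst hCm hs hCc) P c Q)
    (hcP : ∀ j, c j ∉ P) (hA : tot P Q ∈ (pg h₀ hK hunb hst hCm hs hCc).S)
    (hB : B ∈ (pg h₀ hK hunb hst hCm hs hCc).S) (hPB : P ⊆ B)
    (hI : (pg h₀ hK hunb hst hCm hs hCc).Ind P (tot P Q) B) :
    ∃ φ : Finset C → Set C, (∀ s, #(φ s) ≤ τ) ∧
      ∀ (I : Type u) [LinearOrder I] [Nonempty I] (z : I → Set C), Monotone z →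
        (∀ i, Clo φ (z i)) → #(⋃ i, z i : Set C) ≤ τ → ∀ f : C → C,
        (∀ i, (pg h₀ hK hunb hst hCm hs hCc).LET τ f ((tot P Q ∪ B) ∩ z i)) →
          (pg h₀ hK hunb hst hCm hs hCc).LET τ f ((tot P Q ∪ B) ∩ ⋃ i, z i) := by
  have hτ0 : ℵ₀ ≤ τ := aleph0_le_pt hτ hK
  have htc : #(tot P Q) ≤ (pg h₀ hK hunb hst hCm hs hCc).χ :=
    ((pg h₀ hK hunb hst hCm hs hCc).S_card hA).le
  obtain ⟨φ, h1, h2⟩ := exists_clo_and hτ0 (exists_clo_and hτ0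
    (exists_clo_sm h₀ hK hunb hst hCm hs hCc hτ hτθ hA)
    (exists_clo_sm h₀ hK hunb hst hCm hs hCc hτ hτθ hB)) (exists_clo_and hτ0
    (exists_clo_ind h₀ hK hunb hst hCm hs hCc hτ hτθ hQ.base hI)
    (pg_tr_pch h₀ hK hunb hst hCm hs hCc hΛ hθΛ hτ hτθ hQ hcP
      fun j => hQ.pre_mem hCh htc j))
  refine ⟨φ, h1, fun I _ _ z hz hzc hzτ f hf => ?_⟩
  have hzi : ∀ i, #(z i) ≤ τ := fun i => (mk_le_mk_of_subset (subset_iUnion z i)).trans hzτ
  have hZ : Clo φ (⋃ i, z i) := Clo.iUnion hz.directed_le hzc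
  obtain ⟨C', hC', hC'c, hC's, hY, hfY⟩ := exists_low' hτ hτθ (f := f) (Y := ⋃ i, z i) hzτ
    h₀ hK hunb hCm hCc
  have hL := pg_low h₀ hK hunb hst hCm hs hCc hτ hτθ hC' hC'c hC's
  have hzC : ∀ i, z i ⊆ (C' : Set C) := fun i => (subset_iUnion z i).trans hY
  obtain ⟨-, -, -, h3, h4⟩ := h2 _ hZ hzτ
  refine low_chain_lim (M' := pgLow hK hunb hst hτ hC' hC'c hC's) hL
    (pg_calc hτ hK hunb hst (K.mem_of_le _ hC').1 hC's hC'c)
    (pg_big hτ hK hunb hst (K.mem_of_le _ hC').1 hC's hC'c) (hCτ C' hC' hC'c hC's)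
    (hPtτ C' hC' hC'c hC's) (pg_real hτ hK hunb hst (K.mem_of_le _ hC').1 hC's hC'c)
    (pg_tm_pair hK hunb hst hτ hC' hC'c hC's) hz (subset_tot P Q) hPB (fun i => ?_) (fun i => ?_)
    (fun i => ?_) (inter_subset_right.trans hY) (fun i => (h2 _ (hzc i) (hzi i)).2.1)
    hzτ ?_ (fun x hx => hfY x hx.2) hf
  · exact tr_mem hK hunb hst hτ hC' hC'c hC's (h2 _ (hzc i) (hzi i)).2.2.1
      (inter_subset_right.trans (hzC i))
  · exact tr_mem hK hunb hst hτ hC' hC'c hC's (h2 _ (hzc i) (hzi i)).1.1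
      (inter_subset_right.trans (hzC i))
  · exact tr_mem hK hunb hst hτ hC' hC'c hC's (h2 _ (hzc i) (hzi i)).1.2
      (inter_subset_right.trans (hzC i))
  · obtain ⟨c', h5, h6⟩ := h4 C' hC' hC'c hC's (inter_subset_right.trans hY)
    refine ⟨{j : J // c j ∈ ⋃ i, z i}, inferInstance, inferInstance, c', _, ?_, h6, ?_⟩
    · refine le_trans (mk_le_of_injective (f := fun j : {j : J // c j ∈ ⋃ i, z i} =>
        (⟨c j, j.2⟩ : ⋃ i, z i)) ?_) hzτ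
      intro j j' hj
      exact Subtype.ext (pch_injective hQ hcP (congrArg Subtype.val hj))
    · rw [← h3]
      change tr (C' : Set C) (_ ∪ ⋃ j, _) = _ ∪ ⋃ j, _
      rw [tr_union, tr_iUnion]

/-- **The limit lemma for independent pairs of models**, from the atomicity of the closed
traces. -/
theorem pg_LLt (hΛ : BasePt K ℓ κf α Λ) (hθΛ : θ < Λ) (hτ : BasePt K ℓ κf α τ) (hτθ : τ < θ)
    (hCh : Chn (pg h₀ hK hunb hst hCm hs hCc)) (hJ : MdJ (pg h₀ hK hunb hst hCm hs hCc))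
    (hSh : ∀ (P R : Set C) (J : Type u) [LinearOrder J] [WellFoundedLT J] (c : J → C)
      (Q : J → Set C), PCh (pg h₀ hK hunb hst hCm hs hCc) P c Q → (∀ j, c j ∉ P) →
      tot P Q ∈ (pg h₀ hK hunb hst hCm hs hCc).S → R ∈ (pg h₀ hK hunb hst hCm hs hCc).S →
      P ⊆ R → (pg h₀ hK hunb hst hCm hs hCc).Ind P (tot P Q) R → ∀ N,
        (pg h₀ hK hunb hst hCm hs hCc).Atomic N (tot P Q ∪ R) →
          TrAt hK hunb hst hτ (tot P Q ∪ R) N)
    (hCτ : ChnAt hK hunb hst hτ C) (hPtτ : PtAt hK hunb hst hτ C) {P A B : Set C}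
    (hP : P ∈ (pg h₀ hK hunb hst hCm hs hCc).S) (hA : A ∈ (pg h₀ hK hunb hst hCm hs hCc).S)
    (hB : B ∈ (pg h₀ hK hunb hst hCm hs hCc).S) (hPA : P ⊆ A) (hPB : P ⊆ B)
    (hI : (pg h₀ hK hunb hst hCm hs hCc).Ind P A B) :
    ∃ φ : Finset C → Set C, (∀ s, #(φ s) ≤ τ) ∧
      ∀ (I : Type u) [LinearOrder I] [Nonempty I] (z : I → Set C), Monotone z →
        (∀ i, Clo φ (z i)) → #(⋃ i, z i : Set C) ≤ τ → ∀ f : C → C,
        (∀ i, (pg h₀ hK hunb hst hCm hs hCc).LET τ f ((A ∪ B) ∩ z i)) →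
          (pg h₀ hK hunb hst hCm hs hCc).LET τ f ((A ∪ B) ∩ ⋃ i, z i) := by
  have hτ0 : ℵ₀ ≤ τ := aleph0_le_pt hτ hK
  have hM := pg_calc h₀ hK hunb hst hCm hs hCc
  have hDI : ∀ P ∈ (pg h₀ hK hunb hst hCm hs hCc).S, ∀ c : C,
      ∃ N, (pg h₀ hK hunb hst hCm hs hCc).Atomic N ({c} ∪ P) := by
    rintro P ⟨D, hD, hDc, rfl⟩ x
    obtain ⟨N, hN⟩ := pg_di1 h₀ hK hunb hst hCm hs hCc hΛ hθΛ hD hDc (fun _ : PUnit.{u + 1} => x)
    refine ⟨N, ?_⟩
    rwa [range_const] at hN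
  obtain ⟨R, hR0, hRm, hRS, hRA, hpch⟩ := exists_od' hCh hDI hP hA hPA
  have hRsub : ∀ n, R n ⊆ A := fun n => by
    rw [← hRA]
    exact subset_iUnion R n
  have hR0B : R 0 ⊆ B := by rwa [hR0]
  obtain ⟨T, hT0, hTI, hTat⟩ := exists_tower hM hJ hRS hRm (fun n => by
    obtain ⟨J, i1, i2, c, Q, -, -, h1, h2⟩ := hpch n
    exact ⟨J, i1, i2, c, Q, h1, h2⟩) hB hR0B (fun n => by
    rw [hR0]
    exact hI.mono (hRsub n) Subset.rfl)
  have hTS : ∀ n, T n ∈ (pg h₀ hK hunb hst hCm hs hCc).S := fun n => by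
    cases n with
    | zero => rwa [hT0]
    | succ n => exact (hTat n).mem
  have hTm : Monotone T := monotone_nat_of_le_succ fun n => subset_union_left.trans (hTat n).sub
  have hRT : ∀ n, R n ⊆ T n := fun n => by
    cases n with
    | zero => rwa [hT0]
    | succ n => exact subset_union_right.trans (hTat n).sub
  -- the closure
  obtain ⟨φ, h1, h2⟩ := exists_clo_and hτ0 (exists_clo_and hτ0
    (exists_clo_sm h₀ hK hunb hst hCm hs hCc hτ hτθ hA)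
    (exists_clo_ind h₀ hK hunb hst hCm hs hCc hτ hτθ hP hI))
    (exists_clo_nat hτ0 (P := fun n H => (T n ∩ H ∈ Sm K τ C ∧
      ∀ (C' : L.Substructure C) (hC' : K.le C') (hC'c : #C' = Order.succ τ) (hC's : Sat K τ C'),
        H ⊆ C' → (pgLow hK hunb hst hτ hC' hC'c hC's).Atomic (tr (C' : Set C) (T (n + 1) ∩ H))
          (tr (C' : Set C) ((T n ∪ R (n + 1)) ∩ H))) ∧ (R n ∩ H ∈ Sm K τ C ∧
      ∀ (C' : L.Substructure C) (hC' : K.le C') (hC'c : #C' = Order.succ τ) (hC's : Sat K τ C'),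
        H ⊆ C' → ∃ (κ : Type u) (_ : LinearOrder κ) (_ : WellFoundedLT κ) (c : κ → (C' : Set C))
          (Q : κ → Set (C' : Set C)), #κ ≤ τ ∧
          PCh (pgLow hK hunb hst hτ hC' hC'c hC's) (tr (C' : Set C) (R n ∩ H)) c Q ∧
          tr (C' : Set C) (R (n + 1) ∩ H) = tot (tr (C' : Set C) (R n ∩ H)) Q)) fun n => by
      obtain ⟨J, i1, i2, c, Q, -, hcP, hQ, hQt⟩ := hpch n
      have hQS : tot (R n) Q ∈ (pg h₀ hK hunb hst hCm hs hCc).S := by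
        rw [← hQt]
        exact hRS (n + 1)
      refine exists_clo_and hτ0 (exists_clo_and hτ0
        (exists_clo_sm h₀ hK hunb hst hCm hs hCc hτ hτθ (hTS n)) ?_) ?_
      · obtain ⟨ψ, h3, h4⟩ := hSh (R n) (T n) J c Q hQ hcP hQS (hTS n) (hRT n) (by
          rw [← hQt]
          exact hTI n) (T (n + 1)) (by
          rw [← hQt, union_comm]
          exact hTat n)
        rw [← hQt, union_comm] at h4
        exact ⟨ψ, h3, h4⟩
      · obtain ⟨ψ, h3, h4⟩ := pg_tr_pch h₀ hK hunb hst hCm hs hCc hΛ hθΛ hτ hτθ hQ hcP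
          fun j => hQ.pre_mem hCh ((pg h₀ hK hunb hst hCm hs hCc).S_card hQS).le j
        refine ⟨ψ, h3, fun H hH hHc => ?_⟩
        obtain ⟨h5, h6, h7⟩ := h4 H hH hHc
        refine ⟨h5, fun C' hC' hC'c hC's hHC => ?_⟩
        obtain ⟨c', h8, h9⟩ := h7 C' hC' hC'c hC's (inter_subset_right.trans hHC)
        refine ⟨{j : J // c j ∈ H}, inferInstance, inferInstance, c', _, ?_, h9, ?_⟩
        · refine le_trans (mk_le_of_injective (f := fun j : {j : J // c j ∈ H} =>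
            (⟨c j, j.2⟩ : H)) ?_) hHc
          intro j j' hj
          exact Subtype.ext (pch_injective hQ hcP (congrArg Subtype.val hj))
        · rw [hQt, ← h6]
          change tr (C' : Set C) (_ ∪ ⋃ j, _) = _ ∪ ⋃ j, _
          rw [tr_union, tr_iUnion])
  refine ⟨φ, h1, fun I _ _ z hz hzc hzτ f hf => ?_⟩
  have hzi : ∀ i, #(z i) ≤ τ := fun i => (mk_le_mk_of_subset (subset_iUnion z i)).trans hzτ
  have hZ : Clo φ (⋃ i, z i) := Clo.iUnion hz.directed_le hzc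
  have hφi := fun i => h2 _ (hzc i) (hzi i)
  obtain ⟨-, hφZ⟩ := h2 _ hZ hzτ
  obtain ⟨C', hC', hC'c, hC's, hY, hfY⟩ := exists_low' hτ hτθ (f := f) (Y := ⋃ i, z i) hzτ
    h₀ hK hunb hCm hCc
  have hL := pg_low h₀ hK hunb hst hCm hs hCc hτ hτθ hC' hC'c hC's
  have hzC : ∀ i, z i ⊆ (C' : Set C) := fun i => (subset_iUnion z i).trans hY
  have hmT : ∀ n i, tr (C' : Set C) (T n ∩ z i) ∈ (pgLow hK hunb hst hτ hC' hC'c hC's).S :=
    fun n i => tr_mem hK hunb hst hτ hC' hC'c hC's ((hφi i).2 n).1.1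
      (inter_subset_right.trans (hzC i))
  have h3 := low_pair_lim (M' := pgLow hK hunb hst hτ hC' hC'c hC's) (R := R) (T := T) hL
    (pg_calc hτ hK hunb hst (K.mem_of_le _ hC').1 hC's hC'c)
    (pg_big hτ hK hunb hst (K.mem_of_le _ hC').1 hC's hC'c) (hCτ C' hC' hC'c hC's)
    (hPtτ C' hC' hC'c hC's) (pg_real hτ hK hunb hst (K.mem_of_le _ hC').1 hC's hC'c)
    (pg_tm_pair hK hunb hst hτ hC' hC'c hC's) hz hRm hTm (hRT 0) hRT
    (fun n i => tr_mem hK hunb hst hτ hC' hC'c hC's ((hφi i).2 n).2.1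
      (inter_subset_right.trans (hzC i))) hmT
    (fun i => by
      rw [hRA]
      exact tr_mem hK hunb hst hτ hC' hC'c hC's (hφi i).1.1 (inter_subset_right.trans (hzC i)))
    (fun n => inter_subset_right.trans hY)
    (fun n i => ((hφi i).2 n).1.2 C' hC' hC'c hC's (hzC i))
    (fun i => by
      rw [hRA, hR0, hT0]
      exact (hφi i).1.2) hzτ (fun n => (hφZ n).2.2 C' hC' hC'c hC's hY) (f := f)
    (fun x hx => hfY x hx.2) (fun i => by
      rw [hRA, hT0]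
      exact hf i)
  rw [hRA, hT0] at h3
  exact h3

/-- **The limit lemma for independent pairs of models**, from the shrinking of the isolating
sets. -/
theorem pg_LL (hΛ : BasePt K ℓ κf α Λ) (hθΛ : θ < Λ) (hτ : BasePt K ℓ κf α τ) (hτθ : τ < θ)
    (hCh : Chn (pg h₀ hK hunb hst hCm hs hCc)) (hJ : MdJ (pg h₀ hK hunb hst hCm hs hCc))
    (hSh : ∀ (P R : Set C) (J : Type u) [LinearOrder J] [WellFoundedLT J] (c : J → C)
      (Q : J → Set C), PCh (pg h₀ hK hunb hst hCm hs hCc) P c Q → (∀ j, c j ∉ P) →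
      tot P Q ∈ (pg h₀ hK hunb hst hCm hs hCc).S → R ∈ (pg h₀ hK hunb hst hCm hs hCc).S →
      P ⊆ R → (pg h₀ hK hunb hst hCm hs hCc).Ind P (tot P Q) R →
        SHA (pg h₀ hK hunb hst hCm hs hCc) τ (tot P Q ∪ R))
    (hCτ : ChnAt hK hunb hst hτ C) (hPtτ : PtAt hK hunb hst hτ C) {P A B : Set C}
    (hP : P ∈ (pg h₀ hK hunb hst hCm hs hCc).S) (hA : A ∈ (pg h₀ hK hunb hst hCm hs hCc).S)
    (hB : B ∈ (pg h₀ hK hunb hst hCm hs hCc).S) (hPA : P ⊆ A) (hPB : P ⊆ B)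
    (hI : (pg h₀ hK hunb hst hCm hs hCc).Ind P A B) :
    ∃ φ : Finset C → Set C, (∀ s, #(φ s) ≤ τ) ∧
      ∀ (I : Type u) [LinearOrder I] [Nonempty I] (z : I → Set C), Monotone z →
        (∀ i, Clo φ (z i)) → #(⋃ i, z i : Set C) ≤ τ → ∀ f : C → C,
        (∀ i, (pg h₀ hK hunb hst hCm hs hCc).LET τ f ((A ∪ B) ∩ z i)) →
          (pg h₀ hK hunb hst hCm hs hCc).LET τ f ((A ∪ B) ∩ ⋃ i, z i) :=
  pg_LLt h₀ hK hunb hst hCm hs hCc hΛ hθΛ hτ hτθ hCh hJ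
    (fun P R J i1 i2 c Q hQ hcP hA hR hPR hI N hN =>
      trAt_of_sha h₀ hK hunb hst hCm hs hCc hτ hτθ (hSh P R J c Q hQ hcP hA hR hPR hI) hN)
    hCτ hPtτ hP hA hB hPA hPB hI

end

end Vale.Agent.P307.R2.H74
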