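import Vale.Agent.P307.R2.H806.Lim2
import Vale.Agent.P307.R2.H427.MapPG
import Vale.Agent.P307.R2.H913.LL1

/-!
The limit lemma for independent pairs of models, two levels.
-/

set_option linter.unusedSectionVars false

universe u

open Set Cardinal Function

namespace Vale.Agent.P307.R2.H74

open Vale.Agent.P307.R2.H541 Vale.Agent.P307.R2.H541.PG Vale.Agent.P307.R2.H533
  Vale.Agent.P307.R2.H650 Vale.Agent.P307.R2.H913 Vale.Agent.P307.R2.H806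

variable {C : Type u} {M : PG C}

/-- Atomic models over a model and an independent prime chain. -/
def MdJ (M : PG C) : Prop := ∀ P ∈ M.S, ∀ D ∈ M.S, P ⊆ D → ∀ (ι : Type u) [LinearOrder ι]
  [WellFoundedLT ι] (c : ι → C) (Q : ι → Set C), PCh M P c Q → tot P Q ∈ M.S →
    M.Ind P (tot P Q) D → ∃ N, M.Atomic N (D ∪ tot P Q)

/-- One step of the tower: transitivity of atomic models. -/
theorem atomic_step (hM : M.Calc) {B P P' X N : Set C} (hP : P ∈ M.S) (hPP : P ⊆ P')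
    (hI : M.Ind P P' B) (hX : M.Atomic X (B ∪ P)) (hN : M.Atomic N (X ∪ P')) :
    M.Atomic N (B ∪ P') := by
  have hTV : M.TV (B ∪ P) (B ∪ P') := tv_of_ind (hM.sym hP hI)
  refine atomic_trans hN (union_subset_union_left _ (subset_union_left.trans hX.sub))
    fun E hE hEc => ?_
  obtain ⟨D, hDX, hDc, hD⟩ := hX.iso (E ∩ X) inter_subset_right (small_inter_left X hEc)
  have hRn : B ∪ P ⊆ B ∪ P' := union_subset_union_right _ hPP
  have h6 : M.Isol D (B ∪ P') (E ∩ X) := hD.lift hTV hDX hDc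
  have h7 : M.Isol (E ∩ P' ∪ D) (B ∪ P') (E ∩ X) := h6.mono_base subset_union_right
  have h8 : E ∩ P' ∪ D ⊆ B ∪ P' := union_subset (fun x hx => Or.inr hx.2) (hDX.trans hRn)
  have h9 : #(E ∩ P' ∪ D : Set C) < M.χ := small_union (small_inter_left _ hEc) hDc
  refine ⟨_, h8, h9, (h7.union_self h8 h9).subset fun e he => ?_⟩
  rcases hE he with h | h
  · exact Or.inl ⟨he, h⟩
  · exact Or.inr (Or.inl ⟨he, h⟩)

/-- The tower is atomic over the first model and the chain. -/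
theorem tower_atomic (hM : M.Calc) {R T : ℕ → Set C} (hRS : ∀ n, R n ∈ M.S) (hRm : Monotone R)
    (h0 : T 0 ∈ M.S) (hPB : R 0 ⊆ T 0) (hI : ∀ n, M.Ind (R 0) (R n) (T 0))
    (hat : ∀ n, M.Atomic (T (n + 1)) (T n ∪ R (n + 1))) (n : ℕ) : M.Atomic (T n) (T 0 ∪ R n) := by
  induction n with
  | zero =>
    exact ⟨h0, union_subset Subset.rfl hPB, fun E hE hEc =>
      ⟨E, hE.trans subset_union_left, hEc, Isol.self Subset.rfl⟩⟩
  | succ n ih =>
    have h3 : M.Ind (R n) (R (n + 1)) (T 0) :=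
      ((hI (n + 1)).mono (union_subset (hRm (Nat.le_succ n)) Subset.rfl) Subset.rfl).base_mono
        (hRm (Nat.zero_le n))
    exact atomic_step hM (hRS n) (hRm (Nat.le_succ n)) h3 ih (hat n)

/-- The atomic models over `B` and the members of a sequence of prime chains. -/
theorem exists_tower (hM : M.Calc) (hJ : MdJ M) {B : Set C} {R : ℕ → Set C}
    (hRS : ∀ n, R n ∈ M.S) (hRm : Monotone R)
    (hpch : ∀ n, ∃ (ι : Type u) (_ : LinearOrder ι) (_ : WellFoundedLT ι) (c : ι → C)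
      (Q : ι → Set C), PCh M (R n) c Q ∧ R (n + 1) = tot (R n) Q)
    (hB : B ∈ M.S) (hPB : R 0 ⊆ B) (hI : ∀ n, M.Ind (R 0) (R n) B) :
    ∃ T : ℕ → Set C, T 0 = B ∧ (∀ n, M.Ind (R n) (R (n + 1)) (T n)) ∧
      ∀ n, M.Atomic (T (n + 1)) (T n ∪ R (n + 1)) := by
  obtain ⟨T, h1, h2⟩ := exists_seq (fun n (X : Set C) => (n = 0 → X = B) ∧
      M.Atomic X (B ∪ R n) ∧ M.Ind (R n) (R (n + 1)) X)
    (fun n X Y => M.Atomic Y (X ∪ R (n + 1))) ⟨B, fun _ => rfl, ⟨hB, union_subset Subset.rfl hPB,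
      fun E hE hEc => ⟨E, hE.trans subset_union_left, hEc, Isol.self Subset.rfl⟩⟩, hI 1⟩ (by
      rintro n X ⟨-, hX, h4⟩
      obtain ⟨ι, i1, i2, c, Q, hP, hPt⟩ := hpch n
      have h5 : tot (R n) Q ∈ M.S := by
        rw [← hPt]
        exact hRS (n + 1)
      obtain ⟨N, hN⟩ := hJ (R n) (hRS n) X hX.mem (subset_union_right.trans hX.sub) ι c Q hP h5
        (by rwa [← hPt])
      rw [← hPt] at hN
      have h3 : ∀ n, M.Ind (R n) (R (n + 1)) B := fun n =>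
        ((hI (n + 1)).mono (union_subset (hRm (Nat.le_succ n)) Subset.rfl) Subset.rfl).base_mono
          (hRm (Nat.zero_le n))
      have h6 : M.Atomic N (B ∪ R (n + 1)) := atomic_step hM (hRS n) (hRm (Nat.le_succ n)) (h3 n)
        hX hN
      exact ⟨N, ⟨fun h => absurd h (Nat.succ_ne_zero n), h6, hM.sym (hRS _) (h6.dom
        (hM.sym (hRS _) (h3 (n + 1))))⟩, hN⟩)
  exact ⟨T, (h1 0).1 rfl, fun n => (h1 n).2.2, h2⟩

variable {D : Set C} {M' : PG D} {I : Type u} [LinearOrder I] [Nonempty I] {z : I → Set C}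
  {R T : ℕ → Set C}

theorem tr_iUnion {J : Type*} (D : Set C) (X : J → Set C) : tr D (⋃ j, X j) = ⋃ j, tr D (X j) := by
  ext x
  constructor
  · intro hx
    obtain ⟨j, hj⟩ := mem_iUnion.1 hx
    exact mem_iUnion.2 ⟨j, hj⟩
  · intro hx
    obtain ⟨j, hj⟩ := mem_iUnion.1 hx
    exact mem_iUnion.2 ⟨j, hj⟩

theorem iUnion_tr (D : Set C) (X : Set C) : ⋃ i, tr D (X ∩ z i) = tr D (X ∩ ⋃ i, z i) := by
  rw [inter_iUnion, tr_iUnion]

/-- The tower of the traces. -/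
theorem low_tow (hL : M.Low D M') (hM' : M'.Calc) (hz : Monotone z) (hR : Monotone R)
    (hT : Monotone T) (h0 : R 0 ⊆ T 0)
    (hmR : ∀ n i, tr D (R n ∩ z i) ∈ M'.S) (hmT : ∀ n i, tr D (T n ∩ z i) ∈ M'.S)
    (hzD : ∀ n, T n ∩ (⋃ i, z i) ⊆ D)
    (hat : ∀ n i, M'.Atomic (tr D (T (n + 1) ∩ z i)) (tr D ((T n ∪ R (n + 1)) ∩ z i)))
    (hind : ∀ n i, M.IndT M'.χ (R 0 ∩ z i) (R n ∩ z i) (T 0 ∩ z i))
    (hcard : #(⋃ i, z i : Set C) ≤ M'.χ)
    (hpch : ∀ n, ∃ (κ : Type u) (_ : LinearOrder κ) (_ : WellFoundedLT κ) (c : κ → D)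
      (Q : κ → Set D), #κ ≤ M'.χ ∧ PCh M' (tr D (R n ∩ ⋃ i, z i)) c Q ∧
        tr D (R (n + 1) ∩ ⋃ i, z i) = tot (tr D (R n ∩ ⋃ i, z i)) Q) :
    Tow M' (fun n i => tr D (R n ∩ z i)) (fun n i => tr D (T n ∩ z i)) where
  memN := hmR
  memD := hmT
  monoN := fun n i j hij => tr_mono (inter_subset_inter_right _ (hz hij))
  monoD := fun n i j hij => tr_mono (inter_subset_inter_right _ (hz hij))
  upN := fun i n => tr_mono (inter_subset_inter_left _ (hR (Nat.le_succ n)))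
  upD := fun i n => tr_mono (inter_subset_inter_left _ (hT (Nat.le_succ n)))
  atomic := fun n i => by
    refine tower_atomic hM' (R := fun n => tr D (R n ∩ z i)) (T := fun n => tr D (T n ∩ z i))
      (fun n => hmR n i) (fun a b hab => tr_mono (inter_subset_inter_left _ (hR hab)))
      (hmT 0 i) (tr_mono (inter_subset_inter_left _ h0)) (fun n => hL.ind_dn
        (fun x hx => hzD 0 ⟨h0 hx.1, mem_iUnion.2 ⟨i, hx.2⟩⟩) (hind n i)) (fun n => ?_) n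
    have h1 := hat n i
    rw [union_inter_distrib_right, tr_union] at h1
    exact h1
  ind := fun n i => hL.ind_dn (fun x hx => hzD 0 ⟨h0 hx.1, mem_iUnion.2 ⟨i, hx.2⟩⟩) (hind n i)
  base := fun i => tr_mono (inter_subset_inter_left _ h0)
  card := fun n => by
    rw [iUnion_tr]
    exact ((mk_tr_le _).trans (mk_le_mk_of_subset inter_subset_right)).trans hcard
  pch := fun n => by
    rw [iUnion_tr, iUnion_tr]
    exact hpch n

/-- **The limit lemma for pairs**, two levels. -/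
theorem low_pair_lim (hL : M.Low D M') (hM' : M'.Calc) (hB' : M'.Big) (hC' : Chn M')
    (hPt' : Pt1 M') (hR' : M'.Real)
    (hTm' : ∀ P ∈ M'.S, ∀ A ∈ M'.S, ∀ B ∈ M'.S, P ⊆ A → P ⊆ B → M'.Ind P A B → M'.Tm (A ∪ B))
    (hz : Monotone z) (hR : Monotone R) (hT : Monotone T)
    (h0 : R 0 ⊆ T 0) (hRT : ∀ n, R n ⊆ T n)
    (hmR : ∀ n i, tr D (R n ∩ z i) ∈ M'.S) (hmT : ∀ n i, tr D (T n ∩ z i) ∈ M'.S)
    (hmA : ∀ i, tr D ((⋃ n, R n) ∩ z i) ∈ M'.S)
    (hzD : ∀ n, T n ∩ (⋃ i, z i) ⊆ D)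
    (hat : ∀ n i, M'.Atomic (tr D (T (n + 1) ∩ z i)) (tr D ((T n ∪ R (n + 1)) ∩ z i)))
    (hind : ∀ i, M.IndT M'.χ (R 0 ∩ z i) ((⋃ n, R n) ∩ z i) (T 0 ∩ z i))
    (hcard : #(⋃ i, z i : Set C) ≤ M'.χ)
    (hpch : ∀ n, ∃ (κ : Type u) (_ : LinearOrder κ) (_ : WellFoundedLT κ) (c : κ → D)
      (Q : κ → Set D), #κ ≤ M'.χ ∧ PCh M' (tr D (R n ∩ ⋃ i, z i)) c Q ∧
        tr D (R (n + 1) ∩ ⋃ i, z i) = tot (tr D (R n ∩ ⋃ i, z i)) Q)
    {f : C → C} (hfD : ∀ x ∈ ((⋃ n, R n) ∪ T 0) ∩ ⋃ i, z i, f x ∈ D)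
    (hf : ∀ i, M.LET M'.χ f (((⋃ n, R n) ∪ T 0) ∩ z i)) :
    M.LET M'.χ f (((⋃ n, R n) ∪ T 0) ∩ ⋃ i, z i) := by
  have hAD : ((⋃ n, R n) ∪ T 0) ∩ (⋃ i, z i) ⊆ D := by
    rintro x ⟨hx | hx, hx'⟩
    · obtain ⟨n, hn⟩ := mem_iUnion.1 hx
      exact hzD n ⟨hRT n hn, hx'⟩
    · exact hzD 0 ⟨hx, hx'⟩
  have hTow := low_tow hL hM' hz hR hT h0 hmR hmT hzD hat (fun n i =>
    (hind i).mono (inter_subset_inter_left _ (subset_iUnion R n)) Subset.rfl) hcard hpch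
  have hz1 : ∀ i, z i ⊆ ⋃ i, z i := fun i => subset_iUnion z i
  obtain ⟨g, hg, h1, h2⟩ := hTow.exists_map hM' hB' hC' hPt' (f := dnMap D f) (by
    have h3 : (⋃ n, ⋃ i, tr D (T n ∩ z i)) ⊆ tr D (⋃ i, z i) := by
      refine iUnion_subset fun n => iUnion_subset fun i => tr_mono ?_
      exact inter_subset_right.trans (hz1 i)
    exact (mk_le_mk_of_subset h3).trans ((mk_tr_le _).trans hcard)) (by
    intro i
    have hP : tr D (R 0 ∩ z i) ⊆ tr D ((⋃ n, R n) ∩ z i) :=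
      tr_mono (inter_subset_inter_left _ (subset_iUnion R 0))
    have hI : M'.Ind (tr D (R 0 ∩ z i)) (tr D ((⋃ n, R n) ∩ z i)) (tr D (T 0 ∩ z i)) :=
      hL.ind_dn (fun x hx => hzD 0 ⟨h0 hx.1, hz1 i hx.2⟩) (hind i)
    have hTmi := hTm' _ (hmR 0 i) _ (hmA i) _ (hmT 0 i) hP
      (tr_mono (inter_subset_inter_left _ h0)) hI
    have hLE : M'.LE (dnMap D f) (tr D ((⋃ n, R n) ∩ z i) ∪ tr D (T 0 ∩ z i)) := by
      have h3 := hL.le_dn (f' := dnMap D f) (X := ((⋃ n, R n) ∪ T 0) ∩ z i)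
        (fun x hx => dnMap_val (hfD x ⟨hx.1, hz1 i hx.2⟩)) (hf i)
      rwa [union_inter_distrib_right, tr_union] at h3
    have hc : #(dnMap D f '' (tr D ((⋃ n, R n) ∩ z i) ∪ tr D (T 0 ∩ z i))) ≤ M'.χ := by
      refine mk_image_le.trans ((mk_le_mk_of_subset (t := tr D (⋃ i, z i)) ?_).trans
        ((mk_tr_le _).trans hcard))
      exact union_subset (tr_mono (inter_subset_right.trans (hz1 i)))
        (tr_mono (inter_subset_right.trans (hz1 i)))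
    obtain ⟨N, hN, hNs⟩ := hB'.ls _ hc
    obtain ⟨g, hg, hgf⟩ := LE.exists_aut' hR' hN (fun x hx => hNs (mem_image_of_mem _ hx)) hLE hTmi
    exact ⟨g, hg, fun a ha => hgf a (Or.inr ha), fun n a ha => hgf a (Or.inl
      (tr_mono (inter_subset_inter_left _ (subset_iUnion R n)) ha))⟩)
  refine hL.le_up (f' := dnMap D f) hAD (fun x hx => dnMap_val (hfD x hx)) ?_
  refine le_of_G hg fun a ha => ?_
  obtain ⟨ha1, ha2⟩ := ha
  obtain ⟨i, hi⟩ := mem_iUnion.1 ha2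
  rcases ha1 with ha1 | ha1
  · obtain ⟨n, hn⟩ := mem_iUnion.1 ha1
    exact h2 n i a ⟨hn, hi⟩
  · exact h1 i a ⟨ha1, hi⟩

end Vale.Agent.P307.R2.H74
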