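import Vale.Agent.P307.R2.H74.Sha
import Vale.Agent.P307.R2.H301.Din.Rows

/-!
The limit lemma for independent pairs of models, from the shrinking inside the small isolated
models for the pairs one of which is a prime chain.
-/

set_option linter.unusedSectionVars false

universe u

open FirstOrder Cardinal Set

namespace Vale.Agent.P307.R2.H74

open Vale.Agent.P307 Vale.Agent.P307.H304 Vale.Agent.P307.R2.H287 Vale.Agent.P307.R2.H1
  Vale.Agent.P307.R2.H971 Vale.Agent.P307.R2.H804 Vale.Agent.P307.R2.H541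
  Vale.Agent.P307.R2.H541.PG Vale.Agent.P307.R2.H533 Vale.Agent.P307.R2.H650
  Vale.Agent.P307.R2.H913 Vale.Agent.P307.R2.H806 Language.Structure Language.Substructure
open Vale.Agent.P307.R2.H68 (Clo exists_clo Clo.mono Clo.iUnion)
open Vale.Agent.P307.R2.H718 (AllPG Frame Rk)
open Vale.Agent.P307.R2.H301 (EvM EvL PJ TopJK GdJK LLK chnAt_of' exists_ext_pair ibd_one
  tot_restrict')

variable {L : Language.{u, u}} {K : AEC L} {ℓ Λ τ θ : Cardinal.{u}}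
  {κf α : Cardinal.{u} → Cardinal.{u}} {C : Type u} [L.Structure C]

section

variable (h₀ : BasePt K ℓ κf α θ) (hK : K.IsLS ℓ)
  (hunb : ∀ ν, ν < κf ν ∧ K.CategoricalIn (κf ν)) (hst : Stab K ℓ α (H287.thr κf))
  (hCm : K.mem C) (hs : Sat K θ C) (hCc : #C = Order.succ θ)

/-- The atomic models over the closed traces of `X`, in all the saturated strong submodels of size
`τ⁺`. -/
def TopAt (hK : K.IsLS ℓ) (hunb : ∀ ν, ν < κf ν ∧ K.CategoricalIn (κf ν))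
    (hst : Stab K ℓ α (H287.thr κf)) (hτ : BasePt K ℓ κf α τ) {C : Type u} [L.Structure C]
    (X : Set C) : Prop :=
  ∃ φ : Finset C → Set C, (∀ s, #(φ s) ≤ τ) ∧ ∀ H, Clo φ H → #H ≤ τ →
    ∀ (C' : L.Substructure C) (hC' : K.le C') (hC'c : #C' = Order.succ τ) (hC's : Sat K τ C'),
      H ⊆ C' → ∃ N', (pgLow hK hunb hst hτ hC' hC'c hC's).Atomic N' (tr (C' : Set C) (X ∩ H))

/-- The closed traces of the models which are atomic over `X`, from the shrinking inside the small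
isolated models and the atomic models over the closed traces of `X`. -/
theorem trAt_of_trR (hτ : BasePt K ℓ κf α τ) (hτθ : τ < θ) {X N : Set C}
    (hTR : TrR (pg h₀ hK hunb hst hCm hs hCc) τ X) (hTop : TopAt hK hunb hst hτ X)
    (hN : (pg h₀ hK hunb hst hCm hs hCc).Atomic N X) : TrAt hK hunb hst hτ X N := by
  have hτ0 : ℵ₀ ≤ τ := aleph0_le_pt hτ hK
  obtain ⟨φ, h1, h2⟩ := exists_clo_and hτ0
    (fltA_of_trR h₀ hK hunb hst hCm hs hCc hτ hτθ hTR hN) hTop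
  refine ⟨φ, h1, fun H hH hHc C' hC' hC'c hC's hHC => ?_⟩
  obtain ⟨⟨h3, t, h4, h5, h6, h7⟩, h8⟩ := h2 H hH hHc
  have hL := pg_low h₀ hK hunb hst hCm hs hCc hτ hτθ hC' hC'c hC's
  have hNC : N ∩ H ⊆ (C' : Set C) := inter_subset_right.trans hHC
  have htN : ∀ n, t n ⊆ N ∩ H := fun n => by
    rw [← h6]
    exact subset_iUnion t n
  refine low_atomic_of_top (M' := pgLow hK hunb hst hτ hC' hC'c hC's) hL hN.sub hNC
    (tr_mem hK hunb hst hτ hC' hC'c hC's h3 hNC) h4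
    (fun n => tr_memT hK hunb hst hτ hC' hC'c hC's (h5 n) ((htN n).trans hNC)) h6
    (fun n => ?_) (h8 C' hC' hC'c hC's hHC)
  obtain ⟨B, h9, h10, h11⟩ := h7 n
  exact ⟨B, h9, h10, h11.toT hL.le⟩

/-- Atomic models over the closed traces of a prime chain and an independent model. -/
theorem topAt_pch (hΛ : BasePt K ℓ κf α Λ) (hθΛ : θ < Λ) (hτ : BasePt K ℓ κf α τ) (hτθ : τ < θ)
    (hCh : Chn (pg h₀ hK hunb hst hCm hs hCc))
    (hJτ : ∀ (C' : L.Substructure C) (hC' : K.le C') (hC'c : #C' = Order.succ τ)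
      (hC's : Sat K τ C'), MdJ (pgLow hK hunb hst hτ hC' hC'c hC's)) {P R : Set C} {J : Type u}
    [LinearOrder J] [WellFoundedLT J] {c : J → C} {Q : J → Set C}
    (hQ : PCh (pg h₀ hK hunb hst hCm hs hCc) P c Q) (hcP : ∀ j, c j ∉ P)
    (hA : tot P Q ∈ (pg h₀ hK hunb hst hCm hs hCc).S)
    (hR : R ∈ (pg h₀ hK hunb hst hCm hs hCc).S) (hPR : P ⊆ R)
    (hI : (pg h₀ hK hunb hst hCm hs hCc).Ind P (tot P Q) R) :
    TopAt hK hunb hst hτ (tot P Q ∪ R) := by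
  have hτ0 : ℵ₀ ≤ τ := aleph0_le_pt hτ hK
  have htc : #(tot P Q) ≤ (pg h₀ hK hunb hst hCm hs hCc).χ :=
    ((pg h₀ hK hunb hst hCm hs hCc).S_card hA).le
  obtain ⟨φ, h1, h2⟩ := exists_clo_and hτ0 (exists_clo_and hτ0
    (exists_clo_sm h₀ hK hunb hst hCm hs hCc hτ hτθ hA)
    (exists_clo_sm h₀ hK hunb hst hCm hs hCc hτ hτθ hR)) (exists_clo_and hτ0
    (exists_clo_ind h₀ hK hunb hst hCm hs hCc hτ hτθ hQ.base hI)
    (pg_tr_pch h₀ hK hunb hst hCm hs hCc hΛ hθΛ hτ hτθ hQ hcP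
      fun j => hQ.pre_mem hCh htc j))
  refine ⟨φ, h1, fun H hH hHc C' hC' hC'c hC's hHC => ?_⟩
  obtain ⟨⟨h3, h4⟩, h5, h6, h7, h8⟩ := h2 H hH hHc
  have hL := pg_low h₀ hK hunb hst hCm hs hCc hτ hτθ hC' hC'c hC's
  obtain ⟨c', -, h9⟩ := h8 C' hC' hC'c hC's (inter_subset_right.trans hHC)
  have h10 : tot (tr (C' : Set C) (P ∩ H)) (fun j : {j : J // c j ∈ H} =>
      tr (C' : Set C) (Q j ∩ H)) = tr (C' : Set C) (tot P Q ∩ H) := by
    rw [← h7]
    change _ ∪ ⋃ j, _ = tr (C' : Set C) (_ ∪ ⋃ j, _)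
    rw [tr_union, tr_iUnion]
  have h11 : (pgLow hK hunb hst hτ hC' hC'c hC's).Ind (tr (C' : Set C) (P ∩ H))
      (tr (C' : Set C) (tot P Q ∩ H)) (tr (C' : Set C) (R ∩ H)) :=
    hL.ind_dn (inter_subset_right.trans hHC) h5
  obtain ⟨N, hN⟩ := hJτ C' hC' hC'c hC's _ h9.base (tr (C' : Set C) (R ∩ H))
    (tr_mem hK hunb hst hτ hC' hC'c hC's h4 (inter_subset_right.trans hHC))
    (tr_mono (inter_subset_inter_left H hPR)) _ c' _ h9 (by
      rw [h10]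
      exact tr_mem hK hunb hst hτ hC' hC'c hC's h3 (inter_subset_right.trans hHC)) (by
      rw [h10]
      exact h11)
  refine ⟨N, ?_⟩
  rw [h10, union_comm, ← tr_union, ← union_inter_distrib_right] at hN
  exact hN

end

/-- **The limit lemma for pairs of models.** -/
theorem evL_ll (hF : Frame K ℓ κf α) (hC : EvM K ℓ κf α fun _ M => Chn M)
    (hP : EvM K ℓ κf α fun _ M => Pt1 M) (hJ : EvM K ℓ κf α fun _ M => TopJK M)
    (hG : EvL K ℓ κf α fun _ M τ => GdJK M τ) : EvL K ℓ κf α fun _ M τ => LLK M τ := by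
  obtain ⟨r, h⟩ := hC.and (hP.and hJ)
  obtain ⟨r', h'⟩ := hG
  refine ⟨max r r', fun θ hθ h₀ hK hunb hst C _ hCm hs hCc => ?_⟩
  obtain ⟨τ₀, h1, h2⟩ := h' θ (hθ.mono (le_max_right _ _)) h₀ hK hunb hst C hCm hs hCc
  refine ⟨τ₀, h1, fun τ h3 hτθ hτr P hP A hA B hB hPA hPB hI => ?_⟩
  obtain ⟨Λ, hθΛ, hΛ⟩ := hF.exists_gt θ
  have hτ := hτr.base
  have hGd := h2 τ h3 hτθ (hτr.mono (le_max_right _ _))
  obtain ⟨hCh, -, hJθ⟩ := h θ (hθ.mono (le_max_left _ _)) h₀ hK hunb hst C hCm hs hCc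
  have hlow : ∀ (C' : L.Substructure C) (hC' : K.le C') (hC'c : #C' = Order.succ τ)
      (hC's : Sat K τ C'), Chn (pgLow hK hunb hst hτ hC' hC'c hC's) ∧
        Pt1 (pgLow hK hunb hst hτ hC' hC'c hC's) ∧ TopJK (pgLow hK hunb hst hτ hC' hC'c hC's) :=
    fun C' hC' hC'c hC's => h τ (hτr.mono (le_max_left _ _)) hτ hK hunb hst C'
      (K.mem_of_le _ hC').1 hC's hC'c
  obtain ⟨φ, h4, h5⟩ := pg_LLt h₀ hK hunb hst hCm hs hCc hΛ hθΛ hτ hτθ hCh (hJθ.mdJ hCh)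
    (fun P R J i1 i2 c Q hQ hcP hA hR hPR hI N hN => by
      have htc := (pg h₀ hK hunb hst hCm hs hCc).S_card hA
      obtain ⟨ι, A', S, c', hS, hE, hA0, hAc, hAS⟩ := exists_ext_pair hQ.base hA hR
        (subset_tot P Q) hPR hI
      obtain ⟨J', hJ', hch', hni, htot⟩ := tot_restrict' hCh hQ htc.le
      have hTR := (hGd ι A' S c' hS hE (by
        rw [hA0, hAc]
        exact ⟨J', _, inferInstance, _, _, hJ', hch', hni, htot⟩)).2
      rw [ibd_one hE hS, hAc, hAS] at hTR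
      exact trAt_of_trR h₀ hK hunb hst hCm hs hCc hτ hτθ hTR
        (topAt_pch h₀ hK hunb hst hCm hs hCc hΛ hθΛ hτ hτθ hCh (fun C' hC' hC'c hC's =>
          (hlow C' hC' hC'c hC's).2.2.mdJ (hlow C' hC' hC'c hC's).1) hQ hcP hA hR hPR hI) hN)
    (fun C' hC' hC'c hC's => (hlow C' hC' hC'c hC's).1)
    (fun C' hC' hC'c hC's => (hlow C' hC' hC'c hC's).2.1) hP hA hB hPA hPB hI
  have hτ0 := aleph0_le_pt hτ hK
  refine ⟨φ, h4, fun I _ _ _ hI z hz hzc hzτ f hf => h5 I z hz hzc ?_ f hf⟩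
  exact (mk_iUnion_le z).trans ((mul_le_mul' hI (ciSup_le' hzτ)).trans (mul_eq_self hτ0).le)

end Vale.Agent.P307.R2.H74
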