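import Vale.Agent.P307.R2.H74.Gds
import Vale.Agent.P307.R2.H301.Din.RowsW

/-!
The row `sh` of the induction on the dimension, and the question from the remaining rows.
-/

set_option linter.unusedSectionVars false

universe u

open FirstOrder Cardinal Set

namespace Vale.Agent.P307.R2.H74

open Vale.Agent.P307 Vale.Agent.P307.H304 Vale.Agent.P307.R2.H541
open Vale.Agent.P307.R2.H718 (AllPG Frame Rk)
open Vale.Agent.P307.R2.H301 (EvM EvL JRE TrE GdWK ShEK KnW RowsW)

variable {L : Language.{u, u}} {K : AEC L} {ℓ : Cardinal.{u}}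
  {κf α : Cardinal.{u} → Cardinal.{u}}

/-- **The field `sh`.** -/
theorem evL_sh {k : ℕ} (h : KnW K ℓ κf α k) : EvL K ℓ κf α fun _ M τ => ShEK k M τ :=
  evL_she h.md h.gd

/-- **The rows**, from the rows on the joint reflection and on the shrinking. -/
theorem rowsW_of (tr0 : EvL K ℓ κf α fun _ M τ => TrE 1 M τ)
    (jr : ∀ k, 1 ≤ k → KnW K ℓ κf α k → (EvL K ℓ κf α fun _ M τ => ShEK k M τ) →
      EvL K ℓ κf α fun _ M τ => JRE (k + 1) M τ)
    (tr : ∀ k, 1 ≤ k → KnW K ℓ κf α k → (EvL K ℓ κf α fun _ M τ => ShEK k M τ) →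
      (EvL K ℓ κf α fun _ M τ => JRE (k + 1) M τ) →
        EvL K ℓ κf α fun _ M τ => TrE (k + 1) M τ) : RowsW K ℓ κf α where
  tr0 := tr0
  sh _ _ h _ := evL_sh h
  jr := jr
  tr := tr

end Vale.Agent.P307.R2.H74
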