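import Vale.Agent.P307.R2.H74.Spread

/-!
The spreading lemma with maps which preserve the types of tiny pieces only.
-/

universe u v

open Set Cardinal Function

namespace Vale.Agent.P307.R2.H541

namespace PG

variable {C : Type u} {M : PG C}

/-- A map along a chain of coherent maps. -/
theorem exists_glue_fun {ι : Type v} [LinearOrder ι] {C : Type u} {z : ι → Set C}
    {ψ : ι → C → C} (hc : ∀ k i, k < i → ∀ a ∈ z k, ψ i a = ψ k a) :
    ∃ f : C → C, ∀ i, ∀ a ∈ z i, f a = ψ i a := by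
  classical
  let f : C → C := fun a => if ha : ∃ k : ι, a ∈ z k then ψ ha.choose a else a
  refine ⟨f, fun k a ha => ?_⟩
  have hex' : ∃ k : ι, a ∈ z k := ⟨k, ha⟩
  have h1 : f a = ψ hex'.choose a := dif_pos hex'
  rw [h1]
  have hc' := hex'.choose_spec
  rcases lt_trichotomy (hex'.choose : ι) k with h | h | h
  · exact (hc _ _ h a hc').symm
  · rw [h]
  · exact hc _ _ h a ha

/-- **Spreading, with maps which preserve tiny pieces.** `τ` is the bound of the tiny sets; `Z` is a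
family of sets (the closed sets; `X ∩ z` is the trace of `z ∈ Z`) and `S` a family of models. A map
is *elementary* on a set if it agrees on every tiny subset with an element of the group. `hIm`:
elementary images of models are models; `hAmal`: elementary maps of models extend to larger models;
`hBack`: an elementary map of a trace into a model is extended to an elementary map of a model onto
the model; `hLim`: maps which are elementary along a chain of traces are elementary on the union. -/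
theorem exists_spread_of_tiny {X : Set C} {ν τ : Cardinal.{u}} (hν : ℵ₀ ≤ ν) (hντ : ν < τ)
    (Z S : Set (Set C))
    (hIm : ∀ E ∈ S, ∀ f : C → C, (∀ A ⊆ E, #A < τ → ∃ g ∈ M.G, ∀ a ∈ A, g a = f a) → f '' E ∈ S)
    (hAmal : ∀ E ∈ S, ∀ E' ∈ S, E ⊆ E' → ∀ f : C → C,
      (∀ A ⊆ E, #A < τ → ∃ g ∈ M.G, ∀ a ∈ A, g a = f a) → ∃ f' : C → C, (∀ a ∈ E, f' a = f a) ∧
        ∀ A ⊆ E', #A < τ → ∃ g ∈ M.G, ∀ a ∈ A, g a = f' a)
    (hBack : ∀ z ∈ Z, ∀ F ∈ S, ∀ f : C → C,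
      (∀ A ⊆ X ∩ z, #A < τ → ∃ g ∈ M.G, ∀ a ∈ A, g a = f a) → (∀ a ∈ X ∩ z, f a ∈ F) →
      ∃ E ∈ S, X ∩ z ⊆ E ∧ ∃ f' : C → C, (∀ a ∈ X ∩ z, f' a = f a) ∧
        (∀ A ⊆ E, #A < τ → ∃ g ∈ M.G, ∀ a ∈ A, g a = f' a) ∧ f' '' E = F)
    (hSU : ∀ (ι : Type u) [LinearOrder ι] [WellFoundedLT ι] [Nonempty ι], #ι ≤ Order.succ ν →
      ∀ F : ι → Set C, Monotone F → (∀ i, F i ∈ S) → (⋃ i, F i) ∈ S)
    (hZU : ∀ (ι : Type u) [LinearOrder ι] [WellFoundedLT ι] [Nonempty ι], #ι ≤ Order.succ ν →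
      ∀ z : ι → Set C, Monotone z → (∀ i, z i ∈ Z) → (⋃ i, z i) ∈ Z)
    (hLim : ∀ (ι : Type u) [LinearOrder ι] [WellFoundedLT ι] [Nonempty ι], #ι ≤ Order.succ ν →
      ∀ z : ι → Set C, Monotone z → (∀ i, z i ∈ Z) → ∀ f : C → C,
        (∀ i, ∀ A ⊆ X ∩ z i, #A < τ → ∃ g ∈ M.G, ∀ a ∈ A, g a = f a) →
        ∀ A ⊆ X ∩ ⋃ i, z i, #A < τ → ∃ g ∈ M.G, ∀ a ∈ A, g a = f a)
    (hStep : ∀ z ∈ Z, ∀ E ∈ S, X ∩ z ⊆ E → ∃ g ∈ M.G, (∀ a ∈ X ∩ z, g a = a) ∧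
      ∃ z' ∈ Z, z ⊆ z' ∧ ∃ E' ∈ S, X ∩ z' ⊆ E' ∧ g '' E ⊆ E' ∧
        ∀ e ⊆ E, #e ≤ ν → ∃ B ⊆ X ∩ z', #B < τ ∧ M.Isol B X (g '' e))
    {z₀ E₀ : Set C} (hz₀ : z₀ ∈ Z) (hE₀ : E₀ ∈ S) (hsE : X ∩ z₀ ⊆ E₀) :
    ∃ z ∈ Z, z₀ ⊆ z ∧ ∃ E ∈ S, X ∩ z ⊆ E ∧
      (∃ f : C → C, (∀ a ∈ X ∩ z₀, f a = a) ∧ E₀ ⊆ f '' E ∧
        ∀ A ⊆ E, #A < τ → ∃ g ∈ M.G, ∀ a ∈ A, g a = f a) ∧
      ∀ e ⊆ E, #e ≤ ν → ∃ B ⊆ X ∩ z, #B < τ ∧ M.Isol B X e := by
  classical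
  have hτ : ℵ₀ ≤ τ := hν.trans hντ.le
  let W : Type u := (Order.succ ν).ord.ToType
  have hW : #W = Order.succ ν := mk_ord_toType _
  let D : Type u := Set C × (C → C) × Set C
  have : Nonempty D := ⟨(∅, id, ∅)⟩
  let P : W → (W → D) → Prop := fun i d => (d i).1 ∈ Z ∧ z₀ ⊆ (d i).1 ∧
    (∀ A ⊆ (d i).2.2, #A < τ → ∃ g ∈ M.G, ∀ a ∈ A, g a = (d i).2.1 a) ∧
    (∀ a ∈ X ∩ z₀, (d i).2.1 a = a) ∧ (d i).2.2 ∈ S ∧ X ∩ (d i).1 ⊆ (d i).2.2 ∧
    E₀ ⊆ (d i).2.1 '' (d i).2.2 ∧ (∀ k < i, (d k).1 ⊆ (d i).1 ∧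
      (d k).2.1 '' (d k).2.2 ⊆ (d i).2.1 '' (d i).2.2 ∧
      (∀ a ∈ X ∩ (d k).1, (d i).2.1 a = (d k).2.1 a) ∧
      ∀ e ⊆ (d k).2.1 '' (d k).2.2, #e ≤ ν → ∃ e' ⊆ (d i).2.2, #e' ≤ ν ∧ (d i).2.1 '' e' = e ∧
        ∃ B ⊆ X ∩ (d i).1, #B < τ ∧ M.Isol B X e')
  obtain ⟨d, hd⟩ := exists_rec P (by
    rintro i d d' hdd ⟨h1, h2, h3, h4, h5, h6, h7, h8⟩
    have hi : d i = d' i := hdd i le_rfl
    have hk : ∀ k < i, d k = d' k := fun k hk => hdd k hk.le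
    refine ⟨hi ▸ h1, hi ▸ h2, hi ▸ h3, hi ▸ h4, hi ▸ h5, hi ▸ h6, hi ▸ h7, fun k hki => ?_⟩
    rw [← hi, ← hk k hki]
    exact h8 k hki) (by
    intro i d hP
    -- the limit
    obtain ⟨s, hs, hs₀s, ψ, hψ₀, E, hE, hψ, hsE, hE₀F, hkk⟩ : ∃ s ∈ Z, z₀ ⊆ s ∧ ∃ ψ : C → C,
        (∀ a ∈ X ∩ z₀, ψ a = a) ∧ ∃ E ∈ S,
        (∀ A ⊆ E, #A < τ → ∃ g ∈ M.G, ∀ a ∈ A, g a = ψ a) ∧
        X ∩ s ⊆ E ∧ E₀ ⊆ ψ '' E ∧ ∀ k < i, (d k).1 ⊆ s ∧
          (d k).2.1 '' (d k).2.2 ⊆ ψ '' E ∧ ∀ a ∈ X ∩ (d k).1, ψ a = (d k).2.1 a := by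
      by_cases hi : Nonempty (Iio i)
      · have hc : #(Iio i) ≤ Order.succ ν := (mk_Iio_succ_ord_le i).trans (Order.le_succ ν)
        have hz : ∀ k k' : Iio i, k < k' → (d k).1 ⊆ (d k').1 := fun k k' h =>
          ((hP k' k'.2).2.2.2.2.2.2.2 k h).1
        have hzm : Monotone fun k : Iio i => (d k).1 := by
          intro k k' hkk
          rcases hkk.lt_or_eq with h | h
          · exact hz k k' h
          · rw [h]
        have hFm : Monotone fun k : Iio i => (d k).2.1 '' (d k).2.2 := by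
          intro k k' hkk
          rcases hkk.lt_or_eq with h | h
          · exact ((hP k' k'.2).2.2.2.2.2.2.2 k h).2.1
          · rw [h]
        obtain ⟨ψ, hψd⟩ := exists_glue_fun (z := fun k : Iio i => X ∩ (d k).1)
          (ψ := fun k : Iio i => (d k).2.1) fun k k' h => ((hP k' k'.2).2.2.2.2.2.2.2 k h).2.2.1
        have k₀ : Iio i := Classical.choice hi
        have hF := hSU _ hc _ hFm fun k => hIm _ (hP k k.2).2.2.2.2.1 _ (hP k k.2).2.2.1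
        have hZ := hZU _ hc _ hzm fun k => (hP k k.2).1
        have hLE := hLim _ hc _ hzm (fun k => (hP k k.2).1) ψ (by
          intro k A hA hAc
          obtain ⟨g, hg, hgA⟩ := (hP k k.2).2.2.1 A (hA.trans (hP k k.2).2.2.2.2.2.1) hAc
          exact ⟨g, hg, fun a ha => (hgA a ha).trans (hψd k a (hA ha)).symm⟩)
        obtain ⟨E, hE, hsE, ψ', hψ', hψ'E, hψ'F⟩ := hBack _ hZ _ hF ψ hLE (by
          intro a ha
          obtain ⟨k, hk⟩ := mem_iUnion.1 ha.2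
          refine mem_iUnion.2 ⟨k, a, (hP k k.2).2.2.2.2.2.1 ⟨ha.1, hk⟩, (hψd k a ⟨ha.1, hk⟩).symm⟩)
        have hks : ∀ k : Iio i, (d k).1 ⊆ ⋃ k : Iio i, (d k).1 := fun k =>
          subset_iUnion (fun k : Iio i => (d k).1) k
        refine ⟨⋃ k : Iio i, (d k).1, hZ, (hP k₀ k₀.2).2.1.trans (hks k₀), ψ',
          fun a ha => ?_, E, hE, hψ'E, hsE, ?_, fun k hk => ⟨hks ⟨k, hk⟩, ?_, fun a ha => ?_⟩⟩
        · rw [hψ' a ⟨ha.1, hks k₀ ((hP k₀ k₀.2).2.1 ha.2)⟩,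
            hψd k₀ a ⟨ha.1, (hP k₀ k₀.2).2.1 ha.2⟩]
          exact (hP k₀ k₀.2).2.2.2.1 a ha
        · rw [hψ'F]
          exact (hP k₀ k₀.2).2.2.2.2.2.2.1.trans
            (subset_iUnion (fun k : Iio i => (d k).2.1 '' (d k).2.2) k₀)
        · rw [hψ'F]
          exact subset_iUnion (fun k : Iio i => (d k).2.1 '' (d k).2.2) ⟨k, hk⟩
        · rw [hψ' a ⟨ha.1, hks ⟨k, hk⟩ ha.2⟩]
          exact hψd ⟨k, hk⟩ a ha
      · exact ⟨z₀, hz₀, Subset.rfl, id, fun a _ => rfl, E₀, hE₀,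
          fun A _ _ => ⟨1, M.G.one_mem, fun a _ => rfl⟩, hsE, by rw [image_id],
          fun k hk => absurd ⟨⟨k, hk⟩⟩ hi⟩
    -- the step
    obtain ⟨g, hg, hgs, s', hs', hss', E', hE', hsE', hgE', hiso⟩ := hStep s hs E hE hsE
    have hgE : g '' E ∈ S := hIm E hE g fun A _ _ => ⟨g, hg, fun a _ => rfl⟩
    obtain ⟨ψ', hψ', hψ'E⟩ := hAmal (g '' E) hgE E' hE' hgE' (fun a => ψ (g⁻¹ a)) (by
      intro A hA hAc
      obtain ⟨k, hk, hkA⟩ := hψ ((g⁻¹ : Equiv.Perm C) '' A) (by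
        rintro _ ⟨a, ha, rfl⟩
        obtain ⟨b, hb, rfl⟩ := hA ha
        rw [inv_ap]
        exact hb) (mk_image_le.trans_lt hAc)
      refine ⟨k * g⁻¹, M.G.mul_mem hk (M.G.inv_mem hg), fun a ha => ?_⟩
      rw [Equiv.Perm.mul_apply, hkA _ (mem_image_of_mem _ ha)])
    have hψg : ∀ a ∈ E, ψ' (g a) = ψ a := fun a ha => by
      rw [hψ' _ (mem_image_of_mem g ha)]
      rw [inv_ap]
    have hψs : ∀ a ∈ X ∩ s, ψ' a = ψ a := by
      intro a ha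
      have h1 := hψg a (hsE ha)
      rwa [hgs a ha] at h1
    have hFF : ψ '' E ⊆ ψ' '' E' := by
      rintro _ ⟨a, ha, rfl⟩
      exact ⟨g a, hgE' (mem_image_of_mem g ha), hψg a ha⟩
    refine ⟨(s', ψ', E'), ?_⟩
    have hui : update d i ((s', ψ', E') : D) i = (s', ψ', E') := update_self i _ d
    have huk : ∀ k < i, update d i ((s', ψ', E') : D) k = d k :=
      fun k hk => update_of_ne hk.ne _ d
    refine ⟨?_, ?_, ?_, ?_, ?_, ?_, ?_, ?_⟩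
    · rw [hui]
      exact hs'
    · rw [hui]
      exact hs₀s.trans hss'
    · rw [hui]
      exact hψ'E
    · rw [hui]
      intro a ha
      change ψ' a = a
      rw [hψs a ⟨ha.1, hs₀s ha.2⟩, hψ₀ a ha]
    · rw [hui]
      exact hE'
    · rw [hui]
      exact hsE'
    · rw [hui]
      exact hE₀F.trans hFF
    · intro k hk
      rw [hui, huk k hk]
      obtain ⟨h1, h2, h3⟩ := hkk k hk
      refine ⟨h1.trans hss', h2.trans hFF, fun a ha => ?_, fun e he hec => ?_⟩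
      · change ψ' a = (d k).2.1 a
        rw [hψs a ⟨ha.1, h1 ha.2⟩, h3 a ha]
      · have hch : ∀ a : e, ∃ b ∈ E, ψ b = a := fun a => h2 (he a.2)
        choose p hpE hp using hch
        have hpc : #(range p) ≤ ν := mk_range_le.trans hec
        have hpE' : range p ⊆ E := by
          rintro _ ⟨a, rfl⟩
          exact hpE a
        obtain ⟨B, hB, hBc, hiB⟩ := hiso (range p) hpE' hpc
        refine ⟨g '' range p, (image_mono hpE').trans hgE', mk_image_le.trans hpc, ?_,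
          B, hB, hBc, hiB⟩
        change ψ' '' (g '' range p) = e
        ext a
        constructor
        · rintro ⟨_, ⟨_, ⟨b, rfl⟩, rfl⟩, rfl⟩
          rw [hψg _ (hpE b), hp b]
          exact b.2
        · intro ha
          exact ⟨g (p ⟨a, ha⟩), mem_image_of_mem g (mem_range_self _), by
            rw [hψg _ (hpE _), hp]⟩)
  -- the end
  have hWne : Nonempty W := by
    rw [← mk_ne_zero_iff, hW]
    exact (Order.succ_ne_bot ν)
  have hz : ∀ k k' : W, k < k' → (d k).1 ⊆ (d k').1 := fun k k' h =>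
    ((hd k').2.2.2.2.2.2.2 k h).1
  have hzm : Monotone fun k : W => (d k).1 := by
    intro k k' hkk
    rcases hkk.lt_or_eq with h | h
    · exact hz k k' h
    · rw [h]
  have hF : ∀ k k' : W, k < k' → (d k).2.1 '' (d k).2.2 ⊆ (d k').2.1 '' (d k').2.2 :=
    fun k k' h => ((hd k').2.2.2.2.2.2.2 k h).2.1
  have hFm : Monotone fun k : W => (d k).2.1 '' (d k).2.2 := by
    intro k k' hkk
    rcases hkk.lt_or_eq with h | h
    · exact hF k k' h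
    · rw [h]
  obtain ⟨f, hfd⟩ := exists_glue_fun (z := fun k : W => X ∩ (d k).1)
    (ψ := fun k : W => (d k).2.1) fun k k' h => ((hd k').2.2.2.2.2.2.2 k h).2.2.1
  have k₀ : W := Classical.choice hWne
  have hFS := hSU _ hW.le _ hFm fun k => hIm _ (hd k).2.2.2.2.1 _ (hd k).2.2.1
  have hZ := hZU _ hW.le _ hzm fun k => (hd k).1
  have hLE := hLim _ hW.le _ hzm (fun k => (hd k).1) f (by
    intro k A hA hAc
    obtain ⟨g, hg, hgA⟩ := (hd k).2.2.1 A (hA.trans (hd k).2.2.2.2.2.1) hAc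
    exact ⟨g, hg, fun a ha => (hgA a ha).trans (hfd k a (hA ha)).symm⟩)
  obtain ⟨E, hE, hsE, ψ, hψ, hψE, hψF⟩ := hBack _ hZ _ hFS f hLE (by
    intro a ha
    obtain ⟨k, hk⟩ := mem_iUnion.1 ha.2
    refine mem_iUnion.2 ⟨k, a, (hd k).2.2.2.2.2.1 ⟨ha.1, hk⟩, (hfd k a ⟨ha.1, hk⟩).symm⟩)
  have hks : ∀ k : W, (d k).1 ⊆ ⋃ k : W, (d k).1 := fun k =>
    subset_iUnion (fun k : W => (d k).1) k
  have hψd : ∀ k : W, ∀ a ∈ X ∩ (d k).1, ψ a = (d k).2.1 a := fun k a ha => by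
    rw [hψ a ⟨ha.1, hks k ha.2⟩, hfd k a ha]
  have hXks : ∀ k : W, X ∩ (d k).1 ⊆ X ∩ ⋃ k : W, (d k).1 := fun k =>
    inter_subset_inter_right X (hks k)
  refine ⟨⋃ k : W, (d k).1, hZ, (hd k₀).2.1.trans (hks k₀), E, hE, hsE,
    ⟨ψ, fun a ha => ?_, ?_, hψE⟩, fun e he hec => ?_⟩
  · rw [hψd k₀ a ⟨ha.1, (hd k₀).2.1 ha.2⟩]
    exact (hd k₀).2.2.2.1 a ha
  · rw [hψF]
    exact (hd k₀).2.2.2.2.2.2.1.trans (subset_iUnion (fun k : W => (d k).2.1 '' (d k).2.2) k₀)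
  · have hψe : ψ '' e ⊆ ⋃ k : W, (d k).2.1 '' (d k).2.2 := by
      rw [← hψF]
      exact image_mono he
    obtain ⟨k, hk⟩ := exists_stage_of_succ hν hF hψe (mk_image_le.trans hec)
    obtain ⟨i, hi⟩ := exists_gt_of_succ hν k
    obtain ⟨e', he', hec', hee', B, hB, hBc, hiB⟩ :=
      ((hd i).2.2.2.2.2.2.2 k hi).2.2.2 _ hk (mk_image_le.trans hec)
    refine ⟨B, hB.trans (hXks i), hBc, ?_⟩
    obtain ⟨k1, hk1, hk1e⟩ := hψE (e ∪ B) (union_subset he ((hB.trans (hXks i)).trans hsE))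
      ((mk_union_le _ _).trans_lt (add_lt_of_lt hτ (hec.trans_lt hντ) hBc))
    obtain ⟨k2, hk2, hk2e⟩ := (hd i).2.2.1 (e' ∪ B) (union_subset he'
      (hB.trans (hd i).2.2.2.2.2.1)) ((mk_union_le _ _).trans_lt
        (add_lt_of_lt hτ (hec'.trans_lt hντ) hBc))
    have h1 := hiB.smul (k := k1⁻¹ * k2) (M.G.mul_mem (M.G.inv_mem hk1) hk2)
      fun b hb => by
        rw [Equiv.Perm.mul_apply, hk2e b (Or.inr hb), ← hψd i b (hB hb), ← hk1e b (Or.inr hb),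
          inv_ap]
    have h2 : ((k1⁻¹ * k2 : Equiv.Perm C) : C → C) '' e' = e := by
      have h3 : k2 '' e' = k1 '' e := by
        have h4 : k2 '' e' = (d i).2.1 '' e' := image_congr fun a ha => hk2e a (Or.inl ha)
        have h5 : k1 '' e = ψ '' e := image_congr fun a ha => hk1e a (Or.inl ha)
        rw [h4, h5, hee']
      have h6 : ((k1⁻¹ * k2 : Equiv.Perm C) : C → C) '' e' =
          (k1⁻¹ : Equiv.Perm C) '' (k2 '' e') := by
        rw [← image_comp]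
        rfl
      rw [h6, h3, ← image_comp]
      have : ((k1⁻¹ : Equiv.Perm C) : C → C) ∘ k1 = id := by
        funext a
        exact inv_ap k1 a
      rw [this, image_id]
    rwa [h2] at h1

end PG

end Vale.Agent.P307.R2.H541
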