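import Vale.Agent.P307.R2.H74.LLf

/-!
The closed traces of the atomic tops in all dimensions, from the shrinking inside the small isolated
models and the tops at the lower level.
-/

set_option linter.unusedSectionVars false

universe u v

open FirstOrder Cardinal Set

namespace Vale.Agent.P307.R2.H74

open Vale.Agent.P307 Vale.Agent.P307.H304 Vale.Agent.P307.R2.H287 Vale.Agent.P307.R2.H1
  Vale.Agent.P307.R2.H971 Vale.Agent.P307.R2.H804 Vale.Agent.P307.R2.H541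
  Vale.Agent.P307.R2.H541.PG Vale.Agent.P307.R2.H533 Vale.Agent.P307.R2.H650
  Vale.Agent.P307.R2.H913 Vale.Agent.P307.R2.H806 Language.Structure Language.Substructure
open Vale.Agent.P307.R2.H68 (Clo exists_clo Clo.mono Clo.iUnion)
open Vale.Agent.P307.R2.H718 (AllPG Frame Rk)
open Vale.Agent.P307.R2.H301 (TrN EvM EvL MdK JRb exists_clo_goodR clo_left clo_right)

open scoped Classical

variable {L : Language.{u, u}} {K : AEC L} {ℓ Λ τ θ : Cardinal.{u}}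
  {κf α : Cardinal.{u} → Cardinal.{u}} {C : Type u} [L.Structure C]

section

variable (h₀ : BasePt K ℓ κf α θ) (hK : K.IsLS ℓ)
  (hunb : ∀ ν, ν < κf ν ∧ K.CategoricalIn (κf ν)) (hst : Stab K ℓ α (H287.thr κf))
  (hCm : K.mem C) (hs : Sat K θ C) (hCc : #C = Order.succ θ)

variable {ι : Type u} {A : Finset ι → Set C} {S : Finset ι} {c : ι}

/-- The atomic models over the closed traces of the boundary. -/
theorem topAt_ext (hE : Ext1 (pg h₀ hK hunb hst hCm hs hCc) A S c) (hS : S.Nonempty)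
    (hτ : BasePt K ℓ κf α τ) (hτθ : τ < θ)
    (hG : ∀ u, u ⊂ S → u.Nonempty →
      TrR (pg h₀ hK hunb hst hCm hs hCc) τ (ibd A (insert c u)))
    (hJ : JRb (pg h₀ hK hunb hst hCm hs hCc) τ A S c)
    (hTop : ∀ (C' : L.Substructure C) (hC' : K.le C') (hC'c : #C' = Order.succ τ)
      (hC's : Sat K τ C'), Md (pgLow hK hunb hst hτ hC' hC'c hC's) ι S.card) :
    TopAt hK hunb hst hτ (ibd A (insert c S)) := by
  obtain ⟨φ, h1, h2⟩ := exists_clo_goodR h₀ hK hunb hst hCm hs hCc hE hS hτ hτθ hG hJ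
  refine ⟨φ, h1, fun H hH hHc C' hC' hC'c hC's hHC => ?_⟩
  obtain ⟨h, hZS⟩ := h2 φ fun _ => Subset.rfl
  have hHZ : H ∈ {H | Clo φ H ∧ #H ≤ τ} := ⟨hH, hHc⟩
  have hL := pg_low h₀ hK hunb hst hCm hs hCc hτ hτθ hC' hC'c hC's
  have hD : ∀ t, t ⊂ insert c S → A t ∩ H ⊆ (C' : Set C) := fun t _ =>
    inter_subset_right.trans hHC
  have h3 : Ext1 (pgLow hK hunb hst hτ hC' hC'c hC's)
      (fun t => PG.tr (C' : Set C) (A t ∩ H)) S c :=
    Low.ext1_tr' (M' := pgLow hK hunb hst hτ hC' hC'c hC's) hL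
      (pg_noOrd h₀ hK hunb hst hCm hs hCc hτ hτθ) h.ext h.ne
      (fun t ht => tr_mem hK hunb hst hτ hC' hC'c hC's (hZS H hHZ t ht) (hD t ht)) hD
      (h.jr H hHZ) (h.tiny H hHZ)
  obtain ⟨N', hN'⟩ := hTop C' hC' hC'c hC's _ S c rfl h3
  rw [ibd_tr] at hN'
  exact ⟨N', hN'⟩

/-- Shrinking of the isolating sets, from the atomicity of the closed traces. -/
theorem trN_of_trAt (hτ : BasePt K ℓ κf α τ) (hτθ : τ < θ) {X N : Set C}
    (hTR : TrR (pg h₀ hK hunb hst hCm hs hCc) τ X)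
    (hJ : ∃ φ : Finset C → Set C, (∀ s, #(φ s) ≤ τ) ∧ ∀ H, Clo φ H → #H ≤ τ →
      (pg h₀ hK hunb hst hCm hs hCc).TVT τ (X ∩ H) X)
    (hA : TrAt hK hunb hst hτ X N) (hN : (pg h₀ hK hunb hst hCm hs hCc).Atomic N X) :
    ∃ ψ, TrN (pg h₀ hK hunb hst hCm hs hCc) τ X N ψ := by
  have hτ0 : ℵ₀ ≤ τ := aleph0_le_pt hτ hK
  obtain ⟨ψ, h1, h2⟩ := exists_clo_and hτ0 hJ hA
  refine ⟨ψ, h1, fun H hH hHc e he hec _ => ?_⟩
  obtain ⟨h3, h4⟩ := h2 H hH hHc
  obtain ⟨C', hC', hC'c, hC's, hY, -⟩ := exists_low' hτ hτθ (f := id) (Y := H) hHc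
    h₀ hK hunb hCm hCc
  have hL := pg_low h₀ hK hunb hst hCm hs hCc hτ hτθ hC' hC'c hC's
  obtain ⟨B, hB, hBc, hBi⟩ := hL.atomic_up (M' := pgLow hK hunb hst hτ hC' hC'c hC's)
    (inter_subset_right.trans hY) (inter_subset_inter_left H hN.sub)
    (h4 C' hC' hC'c hC's hY) e he hec
  obtain ⟨B₁, h5, h6, h7⟩ := hTR.tiny hN hτ0 hτθ.le (he.trans inter_subset_left) hec
  exact ⟨B, hB, hBc, isol_of_isolT (isolT_lift hBi h3 hB hBc) h5 h6 h7⟩

/-- **The closed traces of the atomic tops.** -/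
theorem trAt_ext (hE : Ext1 (pg h₀ hK hunb hst hCm hs hCc) A S c) (hS : S.Nonempty)
    (hτ : BasePt K ℓ κf α τ) (hτθ : τ < θ)
    (hG : ∀ u, u ⊆ S → u.Nonempty →
      TrR (pg h₀ hK hunb hst hCm hs hCc) τ (ibd A (insert c u)))
    (hJ : JRb (pg h₀ hK hunb hst hCm hs hCc) τ A S c)
    (hTop : ∀ (C' : L.Substructure C) (hC' : K.le C') (hC'c : #C' = Order.succ τ)
      (hC's : Sat K τ C'), Md (pgLow hK hunb hst hτ hC' hC'c hC's) ι S.card) {N : Set C}
    (hN : (pg h₀ hK hunb hst hCm hs hCc).Atomic N (ibd A (insert c S))) :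
    TrAt hK hunb hst hτ (ibd A (insert c S)) N :=
  trAt_of_trR h₀ hK hunb hst hCm hs hCc hτ hτθ (hG S (Finset.Subset.refl S) hS)
    (topAt_ext h₀ hK hunb hst hCm hs hCc hE hS hτ hτθ (fun u hu => hG u hu.1) hJ hTop) hN

/-- **Shrinking of the isolating sets** for the atomic tops. -/
theorem trN_ext (hE : Ext1 (pg h₀ hK hunb hst hCm hs hCc) A S c) (hS : S.Nonempty)
    (hτ : BasePt K ℓ κf α τ) (hτθ : τ < θ)
    (hG : ∀ u, u ⊆ S → u.Nonempty →
      TrR (pg h₀ hK hunb hst hCm hs hCc) τ (ibd A (insert c u)))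
    (hJ : JRb (pg h₀ hK hunb hst hCm hs hCc) τ A S c)
    (hTop : ∀ (C' : L.Substructure C) (hC' : K.le C') (hC'c : #C' = Order.succ τ)
      (hC's : Sat K τ C'), Md (pgLow hK hunb hst hτ hC' hC'c hC's) ι S.card) {N : Set C}
    (hN : (pg h₀ hK hunb hst hCm hs hCc).Atomic N (ibd A (insert c S))) :
    ∃ ψ, TrN (pg h₀ hK hunb hst hCm hs hCc) τ (ibd A (insert c S)) N ψ := by
  refine trN_of_trAt h₀ hK hunb hst hCm hs hCc hτ hτθ (hG S (Finset.Subset.refl S) hS) ?_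
    (trAt_ext h₀ hK hunb hst hCm hs hCc hE hS hτ hτθ hG hJ hTop hN) hN
  obtain ⟨φ, h1, h2⟩ := hJ
  refine ⟨φ, h1, fun H hH hHc q hq hqc E hE' hEc => ?_⟩
  obtain ⟨g, hg, h3, h4⟩ := h2 H hH hHc E (by rwa [iun_ssubsets]) hEc q hq hqc
  refine ⟨g, hg, h3, fun e he => ?_⟩
  obtain ⟨v, hv, hev⟩ := hE' he
  have h5 := h4 v (Finset.mem_ssubsets.2 hv) e he hev
  exact ⟨⟨v, hv, h5.1⟩, h5.2⟩

end

section rows

/-- Joint reflection and shrinking over the boundaries of the extensions of the systems of dimension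
`1, …, k` by one direction. -/
def GdW (k : ℕ) {C : Type u} (M : PG C) (τ : Cardinal.{u}) : Prop :=
  ∀ (ι : Type u) (A : Finset ι → Set C) (S : Finset ι) (c : ι), S.Nonempty → S.card ≤ k →
    Ext1 M A S c → JRb M τ A S c ∧ TrR M τ (ibd A (insert c S))

/-- Shrinking for the atomic tops over the boundaries of the extensions of the systems of dimension
`1, …, k` by one direction. -/
def SHe (k : ℕ) {C : Type u} (M : PG C) (τ : Cardinal.{u}) : Prop :=
  ∀ (ι : Type u) (A : Finset ι → Set C) (S : Finset ι) (c : ι), S.Nonempty → S.card ≤ k →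
    Ext1 M A S c → ∀ N, M.Atomic N (ibd A (insert c S)) →
      ∃ ψ, TrN M τ (ibd A (insert c S)) N ψ

variable {k : ℕ}

/-- **The field `gds`.** -/
theorem evL_she (hT : EvM K ℓ κf α fun _ M => MdK k M)
    (hG : EvL K ℓ κf α fun _ M τ => GdW k M τ) : EvL K ℓ κf α fun _ M τ => SHe k M τ := by
  obtain ⟨r, h⟩ := hT
  obtain ⟨r', h'⟩ := hG
  refine ⟨max r r', fun θ hθ h₀ hK hunb hst C _ hCm hs hCc => ?_⟩
  obtain ⟨τ₀, h1, h2⟩ := h' θ (hθ.mono (le_max_right _ _)) h₀ hK hunb hst C hCm hs hCc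
  refine ⟨τ₀, h1, fun τ h3 hτθ hτr ι A S c hS hSk hE N hN => ?_⟩
  have hτ := hτr.base
  have hGd := h2 τ h3 hτθ (hτr.mono (le_max_right _ _))
  exact trN_ext h₀ hK hunb hst hCm hs hCc hE hS hτ hτθ
    (fun u hu hu0 => (hGd ι A u c hu0 ((Finset.card_le_card hu).trans hSk) (hE.sub hu)).2)
    (hGd ι A S c hS hSk hE).1
    (fun C' hC' hC'c hC's => h τ (hτr.mono (le_max_left _ _)) hτ hK hunb hst C'
      (K.mem_of_le _ hC').1 hC's hC'c ι S.card hSk) hN

end rows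

end Vale.Agent.P307.R2.H74
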