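import Vale.Agent.P307.R2.H74.LLd
import Vale.Agent.P307.R2.H718.TopJ

/-!
The limit lemma for independent pairs of models at the base points of large rank.
-/

set_option linter.unusedSectionVars false

universe u

open FirstOrder Cardinal Set

namespace Vale.Agent.P307.R2.H74

open Vale.Agent.P307 Vale.Agent.P307.H304 Vale.Agent.P307.R2.H287 Vale.Agent.P307.R2.H1
  Vale.Agent.P307.R2.H971 Vale.Agent.P307.R2.H804 Vale.Agent.P307.R2.H541
  Vale.Agent.P307.R2.H541.PG Vale.Agent.P307.R2.H533 Vale.Agent.P307.R2.H650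
  Vale.Agent.P307.R2.H913 Vale.Agent.P307.R2.H806 Vale.Agent.P307.R2.H718
  Language.Structure Language.Substructure
open Vale.Agent.P307.R2.H68 (Clo)
open Vale.Agent.P307.R2.H301 (Ev Ev2 ChnU LLU TrB)

/-- Atomic models over all the independent prime chains. -/
theorem mdJ_of_topJ {C : Type u} {M : PG C} (hC : Chn M) (h : H27.TopJ M) : MdJ M := by
  intro P _ D hD hPD ι _ _ c Q hQ ht hI
  have htc : #(tot P Q) ≤ M.χ := (M.S_card ht).le
  obtain ⟨J, h1, h2, h3⟩ := H27.PCh.tot_restrict hC hQ htc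
  obtain ⟨N, hN⟩ := h J P _ _ h2 h1 (by rwa [h3]) D hD hPD (by rwa [h3])
  rw [h3, union_comm] at hN
  exact ⟨N, hN⟩

variable {L : Language.{u, u}} (K : AEC L) (ℓ : Cardinal.{u})
  (κf α : Cardinal.{u} → Cardinal.{u})

/-- Shrinking of the isolating sets for the atomic models over a prime chain and an independent
model. -/
def SHJ (θ τ : Cardinal.{u}) : Prop :=
  ∀ (h₀ : BasePt K ℓ κf α θ) (hK : K.IsLS ℓ) (hunb : ∀ ν, ν < κf ν ∧ K.CategoricalIn (κf ν))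
    (hst : Stab K ℓ α (H287.thr κf)) (C : Type u) [L.Structure C] (hCm : K.mem C)
    (hs : Sat K θ C) (hCc : #C = Order.succ θ) (P B R : Set C),
      P ∈ (pg h₀ hK hunb hst hCm hs hCc).S → B ∈ (pg h₀ hK hunb hst hCm hs hCc).S →
      R ∈ (pg h₀ hK hunb hst hCm hs hCc).S → P ⊆ B → P ⊆ R →
      (pg h₀ hK hunb hst hCm hs hCc).Ind P B R → IsPJ (pg h₀ hK hunb hst hCm hs hCc) P B →
        SHA (pg h₀ hK hunb hst hCm hs hCc) τ (B ∪ R)

variable {K ℓ κf α}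

theorem ev2_shj_of_gdJ (h : Ev2 K ℓ κf α (GdJ K ℓ κf α)) : Ev2 K ℓ κf α (SHJ K ℓ κf α) := by
  obtain ⟨r, h⟩ := h
  refine ⟨r, fun θ τ hτθ hθ hτ h₀ hK hunb hst C _ hCm hs hCc P B R hP hB hR hPB hPR hI hPJ => ?_⟩
  obtain ⟨a, c, hac⟩ : ∃ a c : ULift.{u} Bool, a ≠ c := ⟨⟨false⟩, ⟨true⟩, by simp⟩
  have hE : Ext1 (pg h₀ hK hunb hst hCm hs hCc) (pairS a c P B R) {a} c :=
    pair_ext1 hac hP hB hR hPB hPR hI
  have hG := h θ τ hτθ hθ hτ h₀ hK hunb hst C hCm hs hCc _ _ _ c (Finset.card_singleton a) hE (by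
    rw [pairS_empty, pairS_right]
    exact hPJ)
  have h1 := hG.2
  rw [pair_ibd hac hPR] at h1
  exact SHA.of_trB hτθ.le h1

/-- **The limit lemma for independent pairs of models**, at the base points of large rank. -/
theorem ev_llu' (hF : Frame K ℓ κf α) (hC : Ev K ℓ κf α (ChnU K ℓ κf α))
    (hT : Ev K ℓ κf α (TopJU K ℓ κf α)) (h1 : Ev K ℓ κf α (Pt1U K ℓ κf α))
    (hG : Ev2 K ℓ κf α (SHJ K ℓ κf α)) : Ev2 K ℓ κf α (LLU K ℓ κf α) := by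
  obtain ⟨r₁, hC⟩ := hC
  obtain ⟨r₂, hT⟩ := hT
  obtain ⟨r₃, h1⟩ := h1
  obtain ⟨r₄, hG⟩ := hG
  let r := max (max r₁ r₂) (max r₃ r₄)
  have hr1 : r₁ ≤ r := (le_max_left _ _).trans (le_max_left _ _)
  have hr2 : r₂ ≤ r := (le_max_right _ _).trans (le_max_left _ _)
  have hr3 : r₃ ≤ r := (le_max_left _ _).trans (le_max_right _ _)
  have hr4 : r₄ ≤ r := (le_max_right _ _).trans (le_max_right _ _)
  refine ⟨r, fun θ τ hτθ hθ hτr h₀ hK hunb hst C _ hCm hs hCc P A B hP hA hB hPA hPB hI => ?_⟩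
  have hτ := hτr.base
  obtain ⟨Λ, hθΛ, hΛ⟩ := hF.exists_gt θ
  have hChn : Chn (pg h₀ hK hunb hst hCm hs hCc) :=
    hC θ (hθ.mono hr1) h₀ hK hunb hst C hCm hs hCc
  obtain ⟨φ, h2, h3⟩ := pg_LL h₀ hK hunb hst hCm hs hCc hΛ hθΛ hτ hτθ hChn
    (mdJ_of_topJ hChn (hT θ (hθ.mono hr2) h₀ hK hunb hst C hCm hs hCc))
    (fun P R J _ _ c Q hQ hcP hA hR hPR hI => hG θ τ hτθ (hθ.mono hr4) (hτr.mono hr4) h₀ hK hunb
      hst C hCm hs hCc P _ R hQ.base hA hR (subset_tot P Q) hPR hI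
      ⟨J, inferInstance, inferInstance, c, Q, hQ,
        pch_card hQ hcP ((pg h₀ hK hunb hst hCm hs hCc).S_card hA).le, hcP,
        hQ.pre_mem hChn ((pg h₀ hK hunb hst hCm hs hCc).S_card hA).le, rfl⟩)
    (H301.chnAt_of hK hunb hst hτ (hC τ (hτr.mono hr1)))
    (fun C' hC' hC'c hC's => h1 τ (hτr.mono hr3) hτ hK hunb hst C' (K.mem_of_le _ hC').1 hC's hC'c)
    hP hA hB hPA hPB hI
  refine ⟨φ, h2, fun I _ _ _ hIτ z hz hzc hzτ f hf => ?_⟩
  exact h3 I z hz hzc ((mk_iUnion_le z).trans ((mul_le_mul' hIτ (ciSup_le' hzτ)).trans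
    (mul_eq_self (aleph0_le_pt hτ hK)).le)) f hf

/-- The same, from the behaviour of the closed traces of the prime chains. -/
theorem ev_llu (hF : Frame K ℓ κf α) (hC : Ev K ℓ κf α (ChnU K ℓ κf α))
    (hT : Ev K ℓ κf α (TopJU K ℓ κf α)) (h1 : Ev K ℓ κf α (Pt1U K ℓ κf α))
    (hG : Ev2 K ℓ κf α (GdJ K ℓ κf α)) : Ev2 K ℓ κf α (LLU K ℓ κf α) :=
  ev_llu' hF hC hT h1 (ev2_shj_of_gdJ hG)

end Vale.Agent.P307.R2.H74
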