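import Vale.Agent.P307.R2.H74.LLc

/-!
The limit lemma for a model and a prime chain, two levels.
-/

set_option linter.unusedSectionVars false

universe u

open Set Cardinal Function

namespace Vale.Agent.P307.R2.H74

open Vale.Agent.P307.R2.H541 Vale.Agent.P307.R2.H541.PG Vale.Agent.P307.R2.H533
  Vale.Agent.P307.R2.H650 Vale.Agent.P307.R2.H913 Vale.Agent.P307.R2.H806

section one

variable {C : Type u} {M : PG C} {J : Type u} [LinearOrder J] [Nonempty J]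
  {P N D : J → Set C} {f : C → C}

variable (M P N D) in
/-- Chains of independent pairs `N i`, `D i` over `P i`; the union of the `N i` is a prime chain
over the union of the `P i`. -/
structure Tow0 : Prop where
  memP : ∀ i, P i ∈ M.S
  memN : ∀ i, N i ∈ M.S
  memD : ∀ i, D i ∈ M.S
  monoP : Monotone P
  monoN : Monotone N
  monoD : Monotone D
  subN : ∀ i, P i ⊆ N i
  subD : ∀ i, P i ⊆ D i
  ind : ∀ i, M.Ind (P i) (N i) (D i)
  card : #(⋃ i, D i : Set C) ≤ M.χ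
  card' : #(⋃ i, N i : Set C) ≤ M.χ
  pch : ∃ (κ : Type u) (_ : LinearOrder κ) (_ : WellFoundedLT κ) (c : κ → C) (Q : κ → Set C),
    #κ ≤ M.χ ∧ PCh M (⋃ i, P i) c Q ∧ (⋃ i, N i) = tot (⋃ i, P i) Q

namespace Tow0

/-- The image of a finite set is free from the image of the model. -/
theorem ind_fin (hM : M.Calc) (hC : Chn M) (h : Tow0 M P N D)
    (hf : ∀ i, ∃ g ∈ M.G, (∀ a ∈ D i, g a = f a) ∧ ∀ a ∈ N i, g a = f a)
    {φ : Equiv.Perm C} (hφ : φ ∈ M.G) (hφD : ∀ i, ∀ a ∈ D i, φ a = f a)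
    {x : Set C} (hx : x.Finite) (hxN : x ⊆ ⋃ i, N i) :
    M.Ind (f '' ⋃ i, P i) (f '' x) (φ '' ⋃ i, D i) := by
  have hU : Uni M := Uni.of_chn hC
  obtain ⟨i₀, hi₀⟩ := Tow.exists_finite_sub h.monoN hx hxN
  have hφi : φ '' (⋃ i, P i) = f '' ⋃ i, P i := image_congr fun a ha => by
    obtain ⟨i, hi⟩ := mem_iUnion.1 ha
    exact hφD i a (h.subD i hi)
  have hloc := hC.loc J (fun i => φ '' D i) (fun i j hij => image_mono (h.monoD hij))
    (fun i => M.S_inv hφ (h.memD i)) (by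
      rw [← image_iUnion]
      exact mk_image_le.trans h.card) (f '' x) (hx.image f)
  have hst : ∀ i, i₀ ≤ i → M.Ind (φ '' P i) (f '' x) (φ '' D i) := by
    intro i hi
    obtain ⟨g, hg, hgD, hgN⟩ := hf i
    have hxi : x ⊆ N i := hi₀.trans (h.monoN hi)
    have h1 : M.Ind (P i) x (D i) := (h.ind i).mono hxi Subset.rfl
    have h2 : M.Ind (g '' P i) (g '' x) (g '' D i) := h1.smul hg
    have e1 : g '' P i = φ '' P i := image_congr fun a ha => by
      rw [hgD a (h.subD i ha), hφD i a (h.subD i ha)]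
    have e2 : g '' x = f '' x := image_congr fun a ha => hgN a (hxi ha)
    have e3 : g '' D i = φ '' D i := image_congr fun a ha => by
      rw [hgD a ha, hφD i a ha]
    rwa [e1, e2, e3] at h2
  have h4 := ind_of_stages' hM (P := fun i => φ '' P i) (N := fun i => φ '' D i)
    (fun i => M.S_inv hφ (h.memP i)) (fun i j hij => image_mono (h.monoD hij))
    (fun i => M.S_inv hφ (h.memD i)) (fun i => image_mono (h.subD i)) (by
      rw [← image_iUnion]
      refine M.S_inv hφ (hU.union J P h.monoP h.memP ?_)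
      exact (mk_le_mk_of_subset (iUnion_mono h.subD)).trans h.card) hloc hst
  rw [← image_iUnion, ← image_iUnion, hφi] at h4
  exact h4

/-- **The limit of coherent maps.** -/
theorem exists_map (hM : M.Calc) (hB : M.Big) (hC : Chn M) (hPt : Pt1 M) (h : Tow0 M P N D)
    (hf : ∀ i, ∃ g ∈ M.G, (∀ a ∈ D i, g a = f a) ∧ ∀ a ∈ N i, g a = f a) :
    ∃ g ∈ M.G, (∀ i, ∀ a ∈ D i, g a = f a) ∧ ∀ i, ∀ a ∈ N i, g a = f a := by
  have hU : Uni M := Uni.of_chn hC
  obtain ⟨κ, i1, i2, c, Q, hκ, hP, htot⟩ := h.pch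
  obtain ⟨φ, hφ, hφf⟩ : ∃ g ∈ M.G, ∀ a ∈ ⋃ i, D i, g a = f a := by
    refine hU.face h.monoD h.memD h.card fun i => ?_
    obtain ⟨g, hg, hgD, -⟩ := hf i
    exact ⟨g, hg, hgD⟩
  obtain ⟨g, hg, hgf⟩ : ∃ g ∈ M.G, ∀ a ∈ ⋃ i, N i, g a = f a := by
    refine hU.face h.monoN h.memN h.card' fun i => ?_
    obtain ⟨g, hg, -, hgN⟩ := hf i
    exact ⟨g, hg, hgN⟩
  have hφD : ∀ i, ∀ a ∈ D i, φ a = f a := fun i a ha => hφf a (mem_iUnion.2 ⟨i, ha⟩)
  have hPN : (⋃ i, P i) ⊆ ⋃ i, N i := iUnion_mono h.subN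
  have hPD : (⋃ i, P i) ⊆ ⋃ i, D i := iUnion_mono h.subD
  have hcx : ∀ x : Finset κ, c '' x ⊆ ⋃ i, N i := by
    rintro x _ ⟨k, -, rfl⟩
    rw [htot]
    exact sub_tot _ Q k (hP.mem k)
  have hid : ∀ i, ∃ g ∈ M.G, (∀ a ∈ D i, g a = id a) ∧ ∀ a ∈ N i, g a = id a :=
    fun i => ⟨1, M.G.one_mem, fun _ _ => rfl, fun _ _ => rfl⟩
  obtain ⟨u, hu, hu1, hu2⟩ := hP.exists_glue hM hB hC hPt (R := ⋃ i, D i)
    (g := g⁻¹ * φ) (by
      rw [← htot]
      exact h.card') hκ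
    (hU.union J D h.monoD h.memD h.card) hPD (by
      intro x
      have h1 := h.ind_fin hM hC hid M.G.one_mem (fun i a _ => rfl)
        (x.finite_toSet.image c) (hcx x)
      have e : ((1 : Equiv.Perm C) : C → C) = id := rfl
      rw [e, image_id, image_id, image_id] at h1
      exact h1) (M.G.mul_mem (M.G.inv_mem hg) hφ) (by
      intro a ha
      rw [Equiv.Perm.mul_apply, hφf a (hPD ha), ← hgf a (hPN ha), inv_ap]) (by
      intro x
      have h1 := (h.ind_fin hM hC hf hφ hφD (x.finite_toSet.image c)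
        (hcx x)).smul (M.G.inv_mem hg)
      have e1 : (g⁻¹ : Equiv.Perm C) '' (f '' ⋃ i, P i) = ⋃ i, P i := by
        rw [← image_congr fun a ha => hgf a (hPN ha), ← image_comp]
        have : ((g⁻¹ : Equiv.Perm C) : C → C) ∘ g = id := by
          funext a
          exact inv_ap g a
        rw [this, image_id]
      have e2 : (g⁻¹ : Equiv.Perm C) '' (f '' (c '' x)) = c '' x := by
        rw [← image_congr fun a ha => hgf a (hcx x ha), ← image_comp]
        have : ((g⁻¹ : Equiv.Perm C) : C → C) ∘ g = id := by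
          funext a
          exact inv_ap g a
        rw [this, image_id]
      have e3 : (g⁻¹ : Equiv.Perm C) '' (φ '' ⋃ i, D i) = (g⁻¹ * φ) '' ⋃ i, D i := by
        rw [← image_comp]
        rfl
      rw [e1, e2, e3] at h1
      exact h1)
  refine ⟨g * u, M.G.mul_mem hg hu, fun i a ha => ?_, fun i a ha => ?_⟩
  · rw [Equiv.Perm.mul_apply, hu2 a (mem_iUnion.2 ⟨i, ha⟩), Equiv.Perm.mul_apply, ap_inv,
      hφD i a ha]
  · have h1 : a ∈ ⋃ i, N i := mem_iUnion.2 ⟨i, ha⟩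
    rw [Equiv.Perm.mul_apply, hu1 a (by rw [← htot]; exact h1), hgf a h1]

end Tow0

end one

variable {C : Type u} {M : PG C} {D : Set C} {M' : PG D} {I : Type u} [LinearOrder I] [Nonempty I]
  {z : I → Set C} {P A B : Set C}

/-- **The limit lemma for a model and a prime chain**, two levels. -/
theorem low_chain_lim (hL : M.Low D M') (hM' : M'.Calc) (hB' : M'.Big) (hC' : Chn M')
    (hPt' : Pt1 M') (hR' : M'.Real)
    (hTm' : ∀ P ∈ M'.S, ∀ A ∈ M'.S, ∀ B ∈ M'.S, P ⊆ A → P ⊆ B → M'.Ind P A B → M'.Tm (A ∪ B))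
    (hz : Monotone z) (hPA : P ⊆ A) (hPB : P ⊆ B)
    (hmP : ∀ i, tr D (P ∩ z i) ∈ M'.S) (hmA : ∀ i, tr D (A ∩ z i) ∈ M'.S)
    (hmB : ∀ i, tr D (B ∩ z i) ∈ M'.S)
    (hzD : (A ∪ B) ∩ (⋃ i, z i) ⊆ D)
    (hind : ∀ i, M.IndT M'.χ (P ∩ z i) (A ∩ z i) (B ∩ z i))
    (hcard : #(⋃ i, z i : Set C) ≤ M'.χ)
    (hpch : ∃ (κ : Type u) (_ : LinearOrder κ) (_ : WellFoundedLT κ) (c : κ → D)
      (Q : κ → Set D), #κ ≤ M'.χ ∧ PCh M' (tr D (P ∩ ⋃ i, z i)) c Q ∧
        tr D (A ∩ ⋃ i, z i) = tot (tr D (P ∩ ⋃ i, z i)) Q)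
    {f : C → C} (hfD : ∀ x ∈ (A ∪ B) ∩ ⋃ i, z i, f x ∈ D)
    (hf : ∀ i, M.LET M'.χ f ((A ∪ B) ∩ z i)) :
    M.LET M'.χ f ((A ∪ B) ∩ ⋃ i, z i) := by
  have hz1 : ∀ i, z i ⊆ ⋃ i, z i := fun i => subset_iUnion z i
  have hsub : ∀ {X : Set C}, X ⊆ A ∪ B → ∀ i, X ∩ z i ⊆ D := fun hX i x hx =>
    hzD ⟨hX hx.1, hz1 i hx.2⟩
  have hcX : ∀ X : Set C, #(⋃ i, tr D (X ∩ z i) : Set D) ≤ M'.χ := fun X => by
    rw [iUnion_tr]
    exact ((mk_tr_le _).trans (mk_le_mk_of_subset inter_subset_right)).trans hcard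
  have hT : Tow0 M' (fun i => tr D (P ∩ z i)) (fun i => tr D (A ∩ z i))
      (fun i => tr D (B ∩ z i)) := by
    refine ⟨hmP, hmA, hmB, fun i j hij => tr_mono (inter_subset_inter_right _ (hz hij)),
      fun i j hij => tr_mono (inter_subset_inter_right _ (hz hij)),
      fun i j hij => tr_mono (inter_subset_inter_right _ (hz hij)),
      fun i => tr_mono (inter_subset_inter_left _ hPA),
      fun i => tr_mono (inter_subset_inter_left _ hPB),
      fun i => hL.ind_dn (hsub (hPA.trans subset_union_left) i) (hind i), hcX B, hcX A, ?_⟩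
    rw [iUnion_tr, iUnion_tr]
    exact hpch
  obtain ⟨g, hg, h1, h2⟩ := hT.exists_map hM' hB' hC' hPt' (f := dnMap D f) (by
    intro i
    have hTmi := hTm' _ (hmP i) _ (hmA i) _ (hmB i) (hT.subN i) (hT.subD i) (hT.ind i)
    have hLE : M'.LE (dnMap D f) (tr D (A ∩ z i) ∪ tr D (B ∩ z i)) := by
      have h3 := hL.le_dn (f' := dnMap D f) (X := (A ∪ B) ∩ z i)
        (fun x hx => dnMap_val (hfD x ⟨hx.1, hz1 i hx.2⟩)) (hf i)
      rwa [union_inter_distrib_right, tr_union] at h3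
    have hc : #(dnMap D f '' (tr D (A ∩ z i) ∪ tr D (B ∩ z i))) ≤ M'.χ := by
      refine mk_image_le.trans ((mk_le_mk_of_subset (t := tr D (⋃ i, z i)) ?_).trans
        ((mk_tr_le _).trans hcard))
      exact union_subset (tr_mono (inter_subset_right.trans (hz1 i)))
        (tr_mono (inter_subset_right.trans (hz1 i)))
    obtain ⟨N, hN, hNs⟩ := hB'.ls _ hc
    obtain ⟨g, hg, hgf⟩ := LE.exists_aut' hR' hN (fun x hx => hNs (mem_image_of_mem _ hx)) hLE hTmi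
    exact ⟨g, hg, fun a ha => hgf a (Or.inr ha), fun a ha => hgf a (Or.inl ha)⟩)
  refine hL.le_up (f' := dnMap D f) hzD (fun x hx => dnMap_val (hfD x hx)) ?_
  refine le_of_G hg fun a ha => ?_
  obtain ⟨ha1, ha2⟩ := ha
  obtain ⟨i, hi⟩ := mem_iUnion.1 ha2
  rcases ha1 with ha1 | ha1
  · exact h2 i a ⟨ha1, hi⟩
  · exact h1 i a ⟨ha1, hi⟩

end Vale.Agent.P307.R2.H74
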