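import Vale.Agent.P307.R2.H74.Spread2

/-!
The data over a large boundary `X` inside a model `N` which give models, of a smaller size `τ`, over
the closed traces of `X`, with all the pieces of size at most `ν < τ` isolated over `X`.
-/

universe u v

open Set Cardinal Function

namespace Vale.Agent.P307.R2.H541

namespace PG

variable {C : Type u}

/-- `N` is a model of the large size which contains `X`; `S` is the family of the models of size `τ`;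
`Z` is the family of the closed sets of size `τ`. Elementary maps are maps which agree with elements
of the group on every set of size `< τ`. -/
structure Pack (M : PG C) (τ : Cardinal.{u}) (X N : Set C) where
  S : Set (Set C)
  Z : Set (Set C)
  hτ : ℵ₀ ≤ τ
  hτM : τ < M.χ
  mem : N ∈ M.S
  sub : X ⊆ N
  S_card : ∀ E ∈ S, #E ≤ τ
  Z_card : ∀ z ∈ Z, #z ≤ τ
  cl : ∀ D : Set C, #D ≤ τ → ∃ z ∈ Z, D ⊆ z
  SU : ∀ (ι : Type u) [LinearOrder ι] [WellFoundedLT ι] [Nonempty ι], #ι ≤ τ →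
    ∀ F : ι → Set C, Monotone F → (∀ i, F i ∈ S) → (⋃ i, F i) ∈ S
  ZU : ∀ (ι : Type u) [LinearOrder ι] [WellFoundedLT ι] [Nonempty ι], #ι ≤ τ →
    ∀ z : ι → Set C, Monotone z → (∀ i, z i ∈ Z) → (⋃ i, z i) ∈ Z
  inN : ∀ z ∈ Z, N ∩ z ∈ S
  im : ∀ E ∈ S, ∀ f : C → C, (∀ A ⊆ E, #A < τ → ∃ g ∈ M.G, ∀ a ∈ A, g a = f a) → f '' E ∈ S
  amal : ∀ E ∈ S, ∀ E' ∈ S, E ⊆ E' → ∀ f : C → C,
    (∀ A ⊆ E, #A < τ → ∃ g ∈ M.G, ∀ a ∈ A, g a = f a) → ∃ f' : C → C, (∀ a ∈ E, f' a = f a) ∧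
      ∀ A ⊆ E', #A < τ → ∃ g ∈ M.G, ∀ a ∈ A, g a = f' a
  back : ∀ z ∈ Z, ∀ F ∈ S, ∀ f : C → C,
    (∀ A ⊆ X ∩ z, #A < τ → ∃ g ∈ M.G, ∀ a ∈ A, g a = f a) → (∀ a ∈ X ∩ z, f a ∈ F) →
    ∃ E ∈ S, X ∩ z ⊆ E ∧ ∃ f' : C → C, (∀ a ∈ X ∩ z, f' a = f a) ∧
      (∀ A ⊆ E, #A < τ → ∃ g ∈ M.G, ∀ a ∈ A, g a = f' a) ∧ f' '' E = F
  lim : ∀ (ι : Type u) [LinearOrder ι] [WellFoundedLT ι] [Nonempty ι], #ι ≤ τ →
    ∀ z : ι → Set C, Monotone z → (∀ i, z i ∈ Z) → ∀ f : C → C,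
      (∀ i, ∀ A ⊆ X ∩ z i, #A < τ → ∃ g ∈ M.G, ∀ a ∈ A, g a = f a) →
      ∀ A ⊆ X ∩ ⋃ i, z i, #A < τ → ∃ g ∈ M.G, ∀ a ∈ A, g a = f a
  /-- Density of the types isolated by small sets, for tuples of size `τ` over traces. -/
  dens : ∀ z ∈ Z, ∀ E ∈ S, X ∩ z ⊆ E → ∃ g ∈ M.G, (∀ a ∈ X ∩ z, g a = a) ∧
    ∃ B ⊆ X, #B < M.χ ∧ M.Isol B X (g '' E)
  /-- Shrinking of the isolating sets. -/
  shrink : ∀ z ∈ Z, ∀ e ⊆ N ∩ z, #e < τ → (∃ B ⊆ X, #B < M.χ ∧ M.Isol B X e) →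
    ∃ B ⊆ X ∩ z, #B < τ ∧ M.Isol B X e

variable {M : PG C} {τ : Cardinal.{u}} {X N : Set C}

/-- One step. -/
theorem Pack.step (K : Pack M τ X N) {ν : Cardinal.{u}} (hν : ν < τ) :
    ∀ z ∈ K.Z, ∀ E ∈ K.S, X ∩ z ⊆ E → ∃ g ∈ M.G, (∀ a ∈ X ∩ z, g a = a) ∧
      ∃ z' ∈ K.Z, z ⊆ z' ∧ ∃ E' ∈ K.S, X ∩ z' ⊆ E' ∧ g '' E ⊆ E' ∧
        ∀ e ⊆ E, #e ≤ ν → ∃ B ⊆ X ∩ z', #B < τ ∧ M.Isol B X (g '' e) := by
  intro z hz E hE hzE
  obtain ⟨g, hg, hgz, B, hBX, hBc, hB⟩ := K.dens z hz E hE hzE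
  have hgE : #(g '' E : Set C) ≤ τ := mk_image_le.trans (K.S_card E hE)
  have hXz : #(X ∩ z : Set C) ≤ τ := (mk_le_mk_of_subset inter_subset_right).trans (K.Z_card z hz)
  -- move the isolated copy into `N`
  obtain ⟨k, hk, hk1, hk2⟩ := M.sat K.mem (A := B ∪ X ∩ z) (B := g '' E)
    ((union_subset hBX inter_subset_left).trans K.sub)
    (small_union hBc (hXz.trans_lt K.hτM)) (hgE.trans_lt K.hτM)
  have hkE : (k * g : Equiv.Perm C) '' E ⊆ N := by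
    rintro _ ⟨a, ha, rfl⟩
    exact hk2 _ (mem_image_of_mem g ha)
  have hkEc : #((k * g : Equiv.Perm C) '' E : Set C) ≤ τ := mk_image_le.trans (K.S_card E hE)
  obtain ⟨z', hz', hzz'⟩ := K.cl (z ∪ (k * g : Equiv.Perm C) '' E)
    ((mk_union_le _ _).trans ((add_le_add (K.Z_card z hz) hkEc).trans (add_eq_self K.hτ).le))
  refine ⟨k * g, M.G.mul_mem hk hg, fun a ha => ?_, z', hz', subset_union_left.trans hzz',
    N ∩ z', K.inN z' hz', inter_subset_inter_left z' K.sub,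
    subset_inter hkE (subset_union_right.trans hzz'), fun e he hec => ?_⟩
  · rw [Equiv.Perm.mul_apply, hgz a ha, hk1 a (Or.inr ha)]
  · have h1 : (k * g : Equiv.Perm C) '' e ⊆ (k * g : Equiv.Perm C) '' E := image_mono he
    refine K.shrink z' hz' _ (subset_inter (h1.trans hkE)
      (h1.trans (subset_union_right.trans hzz'))) ((mk_image_le.trans hec).trans_lt hν)
      ⟨B, hBX, hBc, ?_⟩
    have h2 := (hB.subset (image_mono he)).smul hk fun b hb => hk1 b (Or.inl hb)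
    have h3 : (k : C → C) '' (g '' e) = (k * g : Equiv.Perm C) '' e := by
      rw [← image_comp]
      rfl
    rwa [h3] at h2

/-- A model of size `τ` over a closed trace of `X`, with all its pieces of size at most `ν`
isolated over `X` by tiny subsets of the trace. -/
theorem Pack.exists_bdd (K : Pack M τ X N) {ν : Cardinal.{u}} (hν : ℵ₀ ≤ ν) (hντ : ν < τ)
    {z₀ : Set C} (hz₀ : z₀ ∈ K.Z) :
    ∃ z ∈ K.Z, z₀ ⊆ z ∧ ∃ E ∈ K.S, X ∩ z ⊆ E ∧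
      ∀ e ⊆ E, #e ≤ ν → ∃ B ⊆ X ∩ z, #B < τ ∧ M.Isol B X e := by
  have hs : Order.succ ν ≤ τ := Order.succ_le_of_lt hντ
  obtain ⟨z, hz, hz₀z, E, hE, hzE, -, h⟩ := exists_spread_of_tiny (X := X) hν hντ K.Z K.S K.im
    K.amal K.back (fun ι _ _ _ hι => K.SU ι (hι.trans hs)) (fun ι _ _ _ hι => K.ZU ι (hι.trans hs))
    (fun ι _ _ _ hι => K.lim ι (hι.trans hs)) (K.step hντ) hz₀ (K.inN z₀ hz₀)
    (inter_subset_inter_left z₀ K.sub)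
  exact ⟨z, hz, hz₀z, E, hE, hzE, h⟩

end PG

end Vale.Agent.P307.R2.H541
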