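import Vale.Agent.P307.R2.H74.LLd
import Vale.Agent.P307.R2.H287.TinyR
import Vale.Agent.P307.R2.H287.PgLv
import Vale.Agent.P307.R2.H806.Atom
import Vale.Agent.P307.R2.H301.Din.Tr

/-!
The closed traces of the models which are atomic over `X` are atomic over the closed traces of `X`,
from the existence of atomic models at the lower level.
-/

set_option linter.unusedSectionVars false

universe u v

open FirstOrder Cardinal Set

namespace Vale.Agent.P307.R2.H74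

open Vale.Agent.P307.R2.H541 Vale.Agent.P307.R2.H541.PG

section abs

variable {C : Type u} {M : PG C}

/-- Bounded atomicity and the existence of an atomic model give atomicity. -/
theorem atomic_of_filt {X N' : Set C} {t : ℕ → Set C} (htm : Monotone t) (htT : ∀ n, t n ∈ M.T)
    (htS : (⋃ n, t n) ∈ M.S) (hX : X ⊆ ⋃ n, t n)
    (hiso : ∀ n, ∃ B ⊆ X, #B < M.χ ∧ M.Isol B X (t n)) (hN' : M.Atomic N' X) :
    M.Atomic (⋃ n, t n) X := by
  refine ⟨htS, hX, fun E hE hEc => ?_⟩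
  obtain ⟨k, hk, hk1, hk2⟩ := exists_embed_of_filt htm htT htS hX hiso (f := id)
    (fun A _ _ => ⟨1, M.G.one_mem, fun a _ => rfl⟩) hN'.mem (fun x hx => hN'.sub hx)
  obtain ⟨B, hBX, hBc, hB⟩ := hN'.iso (k '' E) (by
    rintro _ ⟨e, he, rfl⟩
    obtain ⟨n, hn⟩ := mem_iUnion.1 (hE he)
    exact hk2 n e hn) (small_image k hEc)
  refine ⟨B, hBX, hBc, ?_⟩
  have h1 := hB.smul (M.G.inv_mem hk) fun b hb => fix_inv (hk1 b (hBX hb))
  have h2 : (k⁻¹ : Equiv.Perm C) '' (k '' E) = E := by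
    rw [← image_comp]
    have : ((k⁻¹ : Equiv.Perm C) : C → C) ∘ k = id := by
      funext a
      exact inv_ap k a
    rw [this, image_id]
  rwa [h2] at h1

variable {D : Set C} {M' : PG D} {τ : Cardinal.{u}} {X Y B E : Set C}

/-- Lifting of the isolation for the tiny pieces. -/
theorem isolT_lift (h : M.IsolT τ B X E) (hXY : M.TVT τ X Y) (hB : B ⊆ X)
    (hBc : #B < τ) : M.IsolT τ B Y E := by
  intro g hg hgB A hA hAc
  obtain ⟨k, hk, h1, h2⟩ := hXY B hB hBc A hA hAc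
  obtain ⟨h₁, hh₁, h3, h4⟩ := h k hk h1 (k '' A) (by
    rintro _ ⟨a, ha, rfl⟩
    exact h2 a ha) (mk_image_le.trans_lt hAc)
  obtain ⟨h₂, hh₂, h5, h6⟩ := h (k * g) (M.G.mul_mem hk hg) (fun b hb => by
    rw [Equiv.Perm.mul_apply, hgB b hb, h1 b hb]) (k '' A) (by
    rintro _ ⟨a, ha, rfl⟩
    exact h2 a ha) (mk_image_le.trans_lt hAc)
  refine ⟨k⁻¹ * h₂ * h₁⁻¹ * k, M.G.mul_mem (M.G.mul_mem (M.G.mul_mem (M.G.inv_mem hk) hh₂)
    (M.G.inv_mem hh₁)) hk, fun a ha => ?_, fun e he => ?_⟩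
  · rw [Equiv.Perm.mul_apply, Equiv.Perm.mul_apply, Equiv.Perm.mul_apply,
      fix_inv (h3 (k a) ⟨a, ha, rfl⟩), h5 (k a) ⟨a, ha, rfl⟩, inv_ap]
  · have h7 : h₁⁻¹ (k e) = e := by
      rw [← h4 e he, inv_ap]
    rw [Equiv.Perm.mul_apply, Equiv.Perm.mul_apply, Equiv.Perm.mul_apply, h7, h6 e he,
      Equiv.Perm.mul_apply, inv_ap]

/-- Isolation for the tiny pieces and a tiny isolating set give isolation. -/
theorem isol_of_isolT {B₁ : Set C} (h : M.IsolT τ B X E) (hB₁ : B₁ ⊆ X) (hB₁c : #B₁ < τ)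
    (h₁ : M.Isol B₁ X E) : M.Isol B X E := by
  intro g hg hgB A hA hAc
  obtain ⟨k, hk, h2, h3⟩ := h g hg hgB B₁ hB₁ hB₁c
  obtain ⟨k', hk', h4, h5⟩ := h₁ k hk h2 A hA hAc
  exact ⟨k', hk', h4, fun e he => by rw [h5 e he, h3 e he]⟩

/-- The trace of a boundedly atomic model is atomic, if there is an atomic model at the lower
level. -/
theorem low_atomic_of_top (hL : M.Low D M') {N X H : Set C} (hXN : X ⊆ N)
    (hND : N ∩ H ⊆ D) (hS : tr D (N ∩ H) ∈ M'.S) {t : ℕ → Set C} (htm : Monotone t)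
    (htT : ∀ n, tr D (t n) ∈ M'.T) (htN : (⋃ n, t n) = N ∩ H)
    (hiso : ∀ n, ∃ B ⊆ X ∩ H, #B < M'.χ ∧ M.IsolT M'.χ B X (t n))
    (hTop : ∃ N', M'.Atomic N' (tr D (X ∩ H))) :
    M'.Atomic (tr D (N ∩ H)) (tr D (X ∩ H)) := by
  obtain ⟨N', hN'⟩ := hTop
  have h1 : tr D (N ∩ H) = ⋃ n, tr D (t n) := by
    rw [← htN, tr_iUnion]
  have h2 : ∀ n, t n ⊆ N ∩ H := fun n => by
    rw [← htN]
    exact subset_iUnion t n
  rw [h1] at hS ⊢
  refine atomic_of_filt (fun n m hnm => tr_mono (htm hnm)) htT hS ?_ (fun n => ?_) hN'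
  · rw [← h1]
    exact tr_mono (inter_subset_inter_left H hXN)
  · obtain ⟨B, hB, hBc, hI⟩ := hiso n
    have hBD : B ⊆ D := (hB.trans (inter_subset_inter_left H hXN)).trans hND
    refine ⟨tr D B, tr_mono hB, by rwa [mk_tr hBD], ?_⟩
    refine hL.isol_dn (by rwa [mk_tr hBD]) (M'.T_card (htT n)) hBD (hI.mono inter_subset_left)

end abs

open Vale.Agent.P307 Vale.Agent.P307.H304 Vale.Agent.P307.R2.H287 Vale.Agent.P307.R2.H1
  Vale.Agent.P307.R2.H971 Vale.Agent.P307.R2.H804 Vale.Agent.P307.R2.H533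
  Vale.Agent.P307.R2.H650 Vale.Agent.P307.R2.H913 Vale.Agent.P307.R2.H806
  Language.Structure Language.Substructure
open Vale.Agent.P307.R2.H68 (Clo exists_clo Clo.mono Clo.iUnion)
open Vale.Agent.P307.R2.H301 (TrN TrB)

variable {L : Language.{u, u}} {K : AEC L} {ℓ Λ τ θ : Cardinal.{u}}
  {κf α : Cardinal.{u} → Cardinal.{u}} {C : Type u} [L.Structure C]

section

variable (h₀ : BasePt K ℓ κf α θ) (hK : K.IsLS ℓ)
  (hunb : ∀ ν, ν < κf ν ∧ K.CategoricalIn (κf ν)) (hst : Stab K ℓ α (H287.thr κf))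
  (hCm : K.mem C) (hs : Sat K θ C) (hCc : #C = Order.succ θ)

/-- Membership in the class of the small models of the lower level. -/
theorem tr_memT (hτ : BasePt K ℓ κf α τ) {C' : L.Substructure C} (hC' : K.le C')
    (hC'c : #C' = Order.succ τ) (hC's : Sat K τ C') {N : Set C} (hN : N ∈ Tm' K τ C)
    (hND : N ⊆ C') : PG.tr (C' : Set C) N ∈ (pgLow hK hunb hst hτ hC' hC'c hC's).T := by
  obtain ⟨E, hE, hEc, rfl⟩ := hN
  obtain ⟨k, hk, hk'⟩ := exists_lift E.subtype C'.subtype (AEC.emb_subtype.2 hE)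
    (AEC.emb_subtype.2 hC') fun d => ⟨⟨d, hND d.2⟩, rfl⟩
  refine ⟨k.toHom.range, hk, ?_, ?_⟩
  · rw [← mk_congr k.equivRange.toEquiv]
    exact hEc
  · ext y
    constructor
    · rintro ⟨d, rfl⟩
      have h2 : ((k d : C') : C) = d := hk' d
      change ((k d : C') : C) ∈ (E : Set C)
      rw [h2]
      exact d.2
    · intro hy
      exact ⟨⟨y, hy⟩, Subtype.ext (hk' ⟨y, hy⟩)⟩

/-- The closed traces of `N` have filtrations by tiny models which are isolated over `X` by tiny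
subsets of the closed traces of `X`. -/
def FltA {C : Type u} [L.Structure C] (M : PG C) (K : AEC L) (τ : Cardinal.{u}) (X N : Set C) :
    Prop :=
  ∃ φ : Finset C → Set C, (∀ s, #(φ s) ≤ τ) ∧ ∀ H, Clo φ H → #H ≤ τ → N ∩ H ∈ Sm K τ C ∧
    ∃ t : ℕ → Set C, Monotone t ∧ (∀ n, t n ∈ Tm' K τ C) ∧ (⋃ n, t n) = N ∩ H ∧
      ∀ n, ∃ B ⊆ X ∩ H, #B < τ ∧ M.Isol B X (t n)

/-- The filtrations, from the shrinking inside the small isolated models. -/
theorem fltA_of_trR (hτ : BasePt K ℓ κf α τ) (hτθ : τ < θ) {X N : Set C}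
    (hTR : TrR (pg h₀ hK hunb hst hCm hs hCc) τ X)
    (hN : (pg h₀ hK hunb hst hCm hs hCc).Atomic N X) :
    FltA (pg h₀ hK hunb hst hCm hs hCc) K τ X N := by
  set M := pg h₀ hK hunb hst hCm hs hCc with hM
  have hτ0 : ℵ₀ ≤ τ := aleph0_le_pt hτ hK
  obtain ⟨V, hV, hVT, hVN⟩ := PG.exists_filtration hN.mem
  have hVs : ∀ n, V n ⊆ N := fun n => by
    rw [← hVN]
    exact subset_iUnion V n
  -- the filtration with the isolating sets inside
  obtain ⟨R, hR, hRR⟩ := exists_seq (fun n (R : Set C) => R ∈ M.T ∧ V n ⊆ R ∧ R ⊆ N)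
    (fun _ R R' => R ⊆ R' ∧ ∃ B ⊆ X ∩ R', M.Isol B X R) (by
      exact ⟨V 0, hVT 0, Subset.rfl, hVs 0⟩) (by
      rintro n R ⟨h1, h2, h3⟩
      obtain ⟨B, hB, hBc, hBi⟩ := hN.iso R h3 (M.T_card h1)
      obtain ⟨R', h4, h5, h6⟩ := M.ls hN.mem (A := (R ∪ V (n + 1)) ∪ B)
        (union_subset (union_subset h3 (hVs _)) (hB.trans hN.sub))
        (PG.small_union (PG.small_union (M.T_card h1) (M.T_card (hVT _))) hBc)
      exact ⟨R', ⟨h4, (subset_union_right.trans subset_union_left).trans h5, h6⟩,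
        (subset_union_left.trans subset_union_left).trans h5, B,
        subset_inter hB (subset_union_right.trans h5), hBi⟩)
  have hRm : Monotone R := monotone_nat_of_le_succ fun n => (hRR n).1
  have hRN : (⋃ n, R n) = N := by
    refine Subset.antisymm (iUnion_subset fun n => (hR n).2.2) ?_
    rw [← hVN]
    exact iUnion_mono fun n => (hR n).2.1
  obtain ⟨χ, hχ, hχ'⟩ := (pgLv h₀ hK hunb hst hCm hs hCc hτ hτθ).filt R hRm (fun n => (hR n).1) (by
    rw [hRN]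
    exact hN.mem)
  rw [hRN] at hχ'
  obtain ⟨φ, h1, h2⟩ := exists_clo_and hτ0 ⟨χ, hχ, hχ'⟩ (exists_clo_nat hτ0 fun n =>
    hTR.shrink (R n) (hR n).1 (hN.iso (R n) (hR n).2.2 (M.T_card (hR n).1)))
  refine ⟨φ, h1, fun H hH hHc => ?_⟩
  obtain ⟨⟨h3, t, h4, h5, h6, h7⟩, h8⟩ := h2 H hH hHc
  refine ⟨h3, t, h4, h5, h7, fun n => ?_⟩
  obtain ⟨-, B, hB, hBi⟩ := hRR n
  have htH : t n ⊆ N ∩ H := by
    rw [← h7]
    exact subset_iUnion t n
  exact h8 (n + 1) (t n) (subset_inter ((h6 n).trans (hRR n).1) (htH.trans inter_subset_right))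
    (Tm'.card (h5 n)) ⟨B, hB, hBi.subset (h6 n)⟩

end

end Vale.Agent.P307.R2.H74
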