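import Vale.Agent.P307.R2.H229.Tree
import Vale.Agent.P307.R2.H806.Atom

/-!
Models over a boundary all of whose pieces of size at most `ν` are isolated: a long chain of small
models which is moved so that the traces of a fixed large boundary stay fixed.
-/

universe u v

open Set Cardinal Function

namespace Vale.Agent.P307.R2.H541

theorem mk_Iio_succ_ord_le {ν : Cardinal.{u}} (i : (Order.succ ν).ord.ToType) :
    #(Iio i) ≤ ν := by
  have h := mk_Iio_lt (α := (Order.succ ν).ord.ToType) i (by simp)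
  rw [mk_ord_toType] at h
  exact Order.lt_succ_iff.1 h

theorem mk_Iic_succ_ord_le {ν : Cardinal.{u}} (hν : ℵ₀ ≤ ν) (i : (Order.succ ν).ord.ToType) :
    #(Iic i) ≤ ν := by
  rw [← Iio_union_right]
  refine (mk_union_le _ _).trans
    ((add_le_add (mk_Iio_succ_ord_le i) ?_).trans (add_eq_self hν).le)
  rw [mk_singleton]
  exact one_le_aleph0.trans hν

/-- A set of size at most `ν` in the union of a chain of length `ν⁺` lies in one of the stages. -/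
theorem exists_stage_of_succ {C : Type u} {ν : Cardinal.{u}} (hν : ℵ₀ ≤ ν)
    {F : (Order.succ ν).ord.ToType → Set C} (hF : ∀ k i, k < i → F k ⊆ F i) {e : Set C}
    (he : e ⊆ ⋃ i, F i) (hec : #e ≤ ν) : ∃ i, e ⊆ F i := by
  classical
  have hmem : ∀ a : e, ∃ i, (a : C) ∈ F i := fun a => mem_iUnion.1 (he a.2)
  choose p hp using hmem
  by_contra hcon
  push Not at hcon
  have hunb : ∀ i, ∃ a : e, i ∈ Iic (p a) := by
    intro i
    by_contra hc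
    push Not at hc
    refine hcon i fun a ha => ?_
    exact hF _ _ (not_le.1 (hc ⟨a, ha⟩)) (hp ⟨a, ha⟩)
  have h1 : (⋃ a : e, Iic (p a)) = Set.univ := by
    refine eq_univ_of_forall fun i => ?_
    obtain ⟨a, ha⟩ := hunb i
    exact mem_iUnion.2 ⟨a, ha⟩
  have h2 : #(⋃ a : e, Iic (p a)) ≤ ν :=
    (mk_iUnion_le _).trans ((mul_le_mul' hec (ciSup_le' fun a =>
      mk_Iic_succ_ord_le hν _)).trans (mul_eq_self hν).le)
  rw [h1, mk_univ, mk_ord_toType] at h2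
  exact absurd h2 (not_le.2 (Order.lt_succ ν))

/-- There is no last stage in a chain of length `ν⁺`. -/
theorem exists_gt_of_succ {ν : Cardinal.{u}} (hν : ℵ₀ ≤ ν) (i : (Order.succ ν).ord.ToType) :
    ∃ j, i < j := by
  by_contra hcon
  push Not at hcon
  have h1 : Iic i = Set.univ := eq_univ_of_forall hcon
  have h2 := mk_Iic_succ_ord_le hν i
  rw [h1, mk_univ, mk_ord_toType] at h2
  exact absurd h2 (not_le.2 (Order.lt_succ ν))

namespace PG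

variable {C : Type u} {M : PG C}

/-- Coherent maps along a chain are glued. -/
theorem exists_glue {ι : Type u} [LinearOrder ι] [WellFoundedLT ι] {Z : Set (Set C)}
    (hLim : ∀ z : ι → Set C, Monotone z → (∀ i, z i ∈ Z) → ∀ f : C → C,
        (∀ i, ∃ g ∈ M.G, ∀ a ∈ z i, g a = f a) → ∃ g ∈ M.G, ∀ i, ∀ a ∈ z i, g a = f a)
    {z : ι → Set C} (hz : ∀ i, z i ∈ Z) (hzm : ∀ k i, k < i → z k ⊆ z i)
    {ψ : ι → Equiv.Perm C} (hψ : ∀ i, ψ i ∈ M.G)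
    (hc : ∀ k i, k < i → ∀ a ∈ z k, ψ i a = ψ k a) :
    ∃ g ∈ M.G, ∀ i, ∀ a ∈ z i, g a = ψ i a := by
  classical
  have hmono : Monotone z := by
    intro k k' hkk
    rcases hkk.lt_or_eq with h | h
    · exact hzm k k' h
    · rw [h]
  let f : C → C := fun a => if ha : ∃ k : ι, a ∈ z k then ψ ha.choose a else a
  have hf : ∀ k : ι, ∀ a ∈ z k, f a = ψ k a := by
    intro k a ha
    have hex' : ∃ k : ι, a ∈ z k := ⟨k, ha⟩
    have h1 : f a = ψ hex'.choose a := dif_pos hex'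
    rw [h1]
    have hc' := hex'.choose_spec
    rcases lt_trichotomy (hex'.choose : ι) k with h | h | h
    · exact (hc _ _ h a hc').symm
    · rw [h]
    · exact hc _ _ h a ha
  obtain ⟨g, hg, hgf⟩ := hLim z hmono hz f fun k => ⟨ψ k, hψ k, fun a ha => (hf k a ha).symm⟩
  exact ⟨g, hg, fun k a ha => by rw [hgf k a ha, hf k a ha]⟩

/-- **Spreading.** `Z` is a family of sets (the closed traces of `X`) and `S` a family of models,
both closed under unions of chains of length at most `ν⁺`; coherent maps along such chains in `Z`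
are glued (`hLim`). If every model over a trace `s` can be moved over `s` into a model over a larger
trace `s'` such that its pieces of size at most `ν` are isolated over `X` by subsets of `s'`, then
over some trace there is a model all of whose pieces of size at most `ν` are isolated over `X` by
subsets of the trace. -/
theorem exists_spread {X : Set C} {ν : Cardinal.{u}} (hν : ℵ₀ ≤ ν) (Z S : Set (Set C))
    (Q : Set C → Prop)
    (hSG : ∀ g ∈ M.G, ∀ E ∈ S, (g : C → C) '' E ∈ S)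
    (hSU : ∀ (ι : Type u) [LinearOrder ι] [WellFoundedLT ι] [Nonempty ι], #ι ≤ Order.succ ν →
      ∀ F : ι → Set C, Monotone F → (∀ i, F i ∈ S) → (⋃ i, F i) ∈ S)
    (hZU : ∀ (ι : Type u) [LinearOrder ι] [WellFoundedLT ι] [Nonempty ι], #ι ≤ Order.succ ν →
      ∀ z : ι → Set C, Monotone z → (∀ i, z i ∈ Z) → (⋃ i, z i) ∈ Z)
    (hLim : ∀ (ι : Type u) [LinearOrder ι] [WellFoundedLT ι] [Nonempty ι], #ι ≤ Order.succ ν →
      ∀ z : ι → Set C, Monotone z → (∀ i, z i ∈ Z) → ∀ f : C → C,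
        (∀ i, ∃ g ∈ M.G, ∀ a ∈ z i, g a = f a) → ∃ g ∈ M.G, ∀ i, ∀ a ∈ z i, g a = f a)
    (hStep : ∀ s ∈ Z, ∀ E ∈ S, s ⊆ E → ∃ g ∈ M.G, (∀ a ∈ s, g a = a) ∧ ∃ s' ∈ Z, s ⊆ s' ∧
      ∃ E' ∈ S, s' ⊆ E' ∧ g '' E ⊆ E' ∧
        ∀ e ⊆ E, #e ≤ ν → ∃ B ⊆ s', Q B ∧ M.Isol B X (g '' e))
    {s₀ E₀ : Set C} (hs₀ : s₀ ∈ Z) (hE₀ : E₀ ∈ S) (hsE : s₀ ⊆ E₀) :
    ∃ s ∈ Z, s₀ ⊆ s ∧ ∃ E ∈ S, s ⊆ E ∧ (∃ g ∈ M.G, (∀ a ∈ s₀, g a = a) ∧ g '' E₀ ⊆ E) ∧
      ∀ e ⊆ E, #e ≤ ν → ∃ B ⊆ s, Q B ∧ M.Isol B X e := by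
  classical
  let W : Type u := (Order.succ ν).ord.ToType
  have hW : #W = Order.succ ν := mk_ord_toType _
  let D : Type u := Set C × Equiv.Perm C × Set C
  have : Nonempty D := ⟨(∅, 1, ∅)⟩
  let P : W → (W → D) → Prop := fun i d => (d i).1 ∈ Z ∧ s₀ ⊆ (d i).1 ∧ (d i).2.1 ∈ M.G ∧
    (∀ a ∈ s₀, (d i).2.1 a = a) ∧ (d i).2.2 ∈ S ∧ (∀ a ∈ (d i).1, (d i).2.1 a ∈ (d i).2.2) ∧
    E₀ ⊆ (d i).2.2 ∧ (∀ k < i, (d k).1 ⊆ (d i).1 ∧ (d k).2.2 ⊆ (d i).2.2 ∧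
      (∀ a ∈ (d k).1, (d i).2.1 a = (d k).2.1 a) ∧
      ∀ e ⊆ (d k).2.2, #e ≤ ν → ∃ B ⊆ (d i).1, Q B ∧ M.Isol B X ((((d i).2.1)⁻¹ : Equiv.Perm C) '' e))
  obtain ⟨d, hd⟩ := exists_rec P (by
    rintro i d d' hdd ⟨h1, h2, h3, h4, h5, h6, h7, h8⟩
    have hi : d i = d' i := hdd i le_rfl
    have hk : ∀ k < i, d k = d' k := fun k hk => hdd k hk.le
    refine ⟨hi ▸ h1, hi ▸ h2, hi ▸ h3, hi ▸ h4, hi ▸ h5, hi ▸ h6, hi ▸ h7, fun k hki => ?_⟩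
    rw [← hi, ← hk k hki]
    exact h8 k hki) (by
    intro i d hP
    -- the limit
    obtain ⟨s, hs, hs₀s, ψ, hψ, hψ₀, F, hF, hsF, hE₀F, hkk⟩ : ∃ s ∈ Z, s₀ ⊆ s ∧ ∃ ψ ∈ M.G,
        (∀ a ∈ s₀, ψ a = a) ∧ ∃ F ∈ S, (∀ a ∈ s, ψ a ∈ F) ∧ E₀ ⊆ F ∧ ∀ k < i, (d k).1 ⊆ s ∧
          (d k).2.2 ⊆ F ∧ ∀ a ∈ (d k).1, ψ a = (d k).2.1 a := by
      by_cases hi : Nonempty (Iio i)
      · have hc : #(Iio i) ≤ Order.succ ν := (mk_Iio_succ_ord_le i).trans (Order.le_succ ν)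
        have hz : ∀ k k' : Iio i, k < k' → (d k).1 ⊆ (d k').1 := fun k k' h =>
          ((hP k' k'.2).2.2.2.2.2.2.2 k h).1
        have hzm : Monotone fun k : Iio i => (d k).1 := by
          intro k k' hkk
          rcases hkk.lt_or_eq with h | h
          · exact hz k k' h
          · rw [h]
        have hFm : Monotone fun k : Iio i => (d k).2.2 := by
          intro k k' hkk
          rcases hkk.lt_or_eq with h | h
          · exact ((hP k' k'.2).2.2.2.2.2.2.2 k h).2.1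
          · rw [h]
        obtain ⟨ψ, hψ, hψd⟩ := exists_glue (M := M) (ι := Iio i) (Z := Z) (hLim (Iio i) hc)
          (z := fun k => (d k).1) (fun k => (hP k k.2).1) hz (ψ := fun k => (d k).2.1)
          (fun k => (hP k k.2).2.2.1) fun k k' h => ((hP k' k'.2).2.2.2.2.2.2.2 k h).2.2.1
        have k₀ : Iio i := Classical.choice hi
        refine ⟨⋃ k : Iio i, (d k).1, hZU _ hc _ hzm fun k => (hP k k.2).1,
          (hP k₀ k₀.2).2.1.trans (subset_iUnion (fun k : Iio i => (d k).1) k₀), ψ, hψ,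
          fun a ha => ?_, ⋃ k : Iio i, (d k).2.2, hSU _ hc _ hFm fun k => (hP k k.2).2.2.2.2.1,
          fun a ha => ?_, (hP k₀ k₀.2).2.2.2.2.2.2.1.trans
            (subset_iUnion (fun k : Iio i => (d k).2.2) k₀), fun k hk => ⟨?_, ?_, ?_⟩⟩
        · rw [hψd k₀ a ((hP k₀ k₀.2).2.1 ha)]
          exact (hP k₀ k₀.2).2.2.2.1 a ha
        · obtain ⟨k, hk⟩ := mem_iUnion.1 ha
          rw [hψd k a hk]
          exact mem_iUnion.2 ⟨k, (hP k k.2).2.2.2.2.2.1 a hk⟩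
        · exact subset_iUnion (fun k : Iio i => (d k).1) ⟨k, hk⟩
        · exact subset_iUnion (fun k : Iio i => (d k).2.2) ⟨k, hk⟩
        · exact hψd ⟨k, hk⟩
      · exact ⟨s₀, hs₀, Subset.rfl, 1, M.G.one_mem, fun a _ => rfl, E₀, hE₀, fun a ha => hsE ha,
          Subset.rfl, fun k hk => absurd ⟨⟨k, hk⟩⟩ hi⟩
    -- the step
    obtain ⟨g, hg, hgs, s', hs', hss', E', hE', hsE', hgE', hiso⟩ :=
      hStep s hs ((ψ⁻¹ : Equiv.Perm C) '' F) (hSG _ (M.G.inv_mem hψ) F hF) (by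
        intro a ha
        exact ⟨ψ a, hsF a ha, inv_ap ψ a⟩)
    have hψs : ∀ a ∈ s, (ψ * g⁻¹) a = ψ a := by
      intro a ha
      rw [Equiv.Perm.mul_apply, fix_inv (hgs a ha)]
    have hFF : F ⊆ (ψ * g⁻¹) '' E' := by
      intro a ha
      refine ⟨g (ψ⁻¹ a), hgE' (mem_image_of_mem g (mem_image_of_mem _ ha)), ?_⟩
      rw [Equiv.Perm.mul_apply, inv_ap, ap_inv]
    refine ⟨(s', ψ * g⁻¹, (ψ * g⁻¹) '' E'), ?_⟩
    have hui : update d i ((s', ψ * g⁻¹, (ψ * g⁻¹) '' E') : D) i =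
      (s', ψ * g⁻¹, (ψ * g⁻¹) '' E') := update_self i _ d
    have huk : ∀ k < i, update d i ((s', ψ * g⁻¹, (ψ * g⁻¹) '' E') : D) k = d k :=
      fun k hk => update_of_ne hk.ne _ d
    have hG : ψ * g⁻¹ ∈ M.G := M.G.mul_mem hψ (M.G.inv_mem hg)
    refine ⟨?_, ?_, ?_, ?_, ?_, ?_, ?_, ?_⟩
    · rw [hui]
      exact hs'
    · rw [hui]
      exact hs₀s.trans hss'
    · rw [hui]
      exact hG
    · rw [hui]
      intro a ha
      change (ψ * g⁻¹) a = a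
      rw [hψs a (hs₀s ha), hψ₀ a ha]
    · rw [hui]
      exact hSG _ hG E' hE'
    · rw [hui]
      intro a ha
      exact mem_image_of_mem _ (hsE' ha)
    · rw [hui]
      exact hE₀F.trans hFF
    · intro k hk
      rw [hui, huk k hk]
      obtain ⟨h1, h2, h3⟩ := hkk k hk
      refine ⟨h1.trans hss', h2.trans hFF, fun a ha => ?_, fun e he hec => ?_⟩
      · change (ψ * g⁻¹) a = (d k).2.1 a
        rw [hψs a (h1 ha), h3 a ha]
      · obtain ⟨B, hB, hQ, hiB⟩ := hiso ((ψ⁻¹ : Equiv.Perm C) '' e)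
          (image_mono (he.trans h2)) (mk_image_le.trans hec)
        refine ⟨B, hB, hQ, ?_⟩
        change M.Isol B X (((ψ * g⁻¹)⁻¹ : Equiv.Perm C) '' e)
        have h4 : (((ψ * g⁻¹)⁻¹ : Equiv.Perm C) : C → C) '' e = g '' ((ψ⁻¹ : Equiv.Perm C) '' e) := by
          rw [← image_comp, mul_inv_rev, inv_inv]
          rfl
        rw [h4]
        exact hiB)
  -- the end
  have hWne : Nonempty W := by
    rw [← mk_ne_zero_iff, hW]
    exact (Order.succ_ne_bot ν)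
  have hz : ∀ k k' : W, k < k' → (d k).1 ⊆ (d k').1 := fun k k' h =>
    ((hd k').2.2.2.2.2.2.2 k h).1
  have hzm : Monotone fun k : W => (d k).1 := by
    intro k k' hkk
    rcases hkk.lt_or_eq with h | h
    · exact hz k k' h
    · rw [h]
  have hF : ∀ k k' : W, k < k' → (d k).2.2 ⊆ (d k').2.2 := fun k k' h =>
    ((hd k').2.2.2.2.2.2.2 k h).2.1
  have hFm : Monotone fun k : W => (d k).2.2 := by
    intro k k' hkk
    rcases hkk.lt_or_eq with h | h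
    · exact hF k k' h
    · rw [h]
  obtain ⟨ψ, hψ, hψd⟩ := exists_glue (M := M) (ι := W) (Z := Z) (hLim W hW.le)
    (z := fun k => (d k).1) (fun k => (hd k).1) hz (ψ := fun k => (d k).2.1)
    (fun k => (hd k).2.2.1) fun k k' h => ((hd k').2.2.2.2.2.2.2 k h).2.2.1
  have k₀ : W := Classical.choice hWne
  have hψ₀ : ∀ a ∈ s₀, ψ a = a := fun a ha => by
    rw [hψd k₀ a ((hd k₀).2.1 ha)]
    exact (hd k₀).2.2.2.1 a ha
  refine ⟨⋃ k : W, (d k).1, hZU W hW.le _ hzm fun k => (hd k).1,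
    (hd k₀).2.1.trans (subset_iUnion (fun k : W => (d k).1) k₀),
    (ψ⁻¹ : Equiv.Perm C) '' ⋃ k : W, (d k).2.2, hSG _ (M.G.inv_mem hψ) _
      (hSU W hW.le _ hFm fun k => (hd k).2.2.2.2.1), fun a ha => ?_,
    ⟨ψ⁻¹, M.G.inv_mem hψ, fun a ha => fix_inv (hψ₀ a ha), image_mono
      ((hd k₀).2.2.2.2.2.2.1.trans (subset_iUnion (fun k : W => (d k).2.2) k₀))⟩,
    fun e he hec => ?_⟩
  · obtain ⟨k, hk⟩ := mem_iUnion.1 ha
    refine ⟨ψ a, mem_iUnion.2 ⟨k, ?_⟩, inv_ap ψ a⟩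
    rw [hψd k a hk]
    exact (hd k).2.2.2.2.2.1 a hk
  · have hψe : ψ '' e ⊆ ⋃ k : W, (d k).2.2 := by
      rintro _ ⟨a, ha, rfl⟩
      obtain ⟨b, hb, rfl⟩ := he ha
      rw [ap_inv]
      exact hb
    obtain ⟨k, hk⟩ := exists_stage_of_succ hν hF hψe (mk_image_le.trans hec)
    obtain ⟨i, hi⟩ := exists_gt_of_succ hν k
    obtain ⟨B, hB, hQ, hiB⟩ := ((hd i).2.2.2.2.2.2.2 k hi).2.2.2 _ hk (mk_image_le.trans hec)
    refine ⟨B, hB.trans (subset_iUnion (fun k : W => (d k).1) i), hQ, ?_⟩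
    have h1 := hiB.smul (k := ψ⁻¹ * (d i).2.1) (M.G.mul_mem (M.G.inv_mem hψ) (hd i).2.2.1)
      fun b hb => by
        rw [Equiv.Perm.mul_apply, ← hψd i b (hB hb), inv_ap]
    have h2 : ((ψ⁻¹ * (d i).2.1 : Equiv.Perm C) : C → C) ''
        ((((d i).2.1)⁻¹ : Equiv.Perm C) '' (ψ '' e)) = e := by
      rw [← image_comp, ← image_comp]
      have : (((ψ⁻¹ * (d i).2.1 : Equiv.Perm C) : C → C) ∘ (((d i).2.1)⁻¹ : Equiv.Perm C)) ∘ ψ =
          id := by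
        funext a
        simp only [comp_apply, Equiv.Perm.mul_apply, ap_inv, inv_ap, id_eq]
      rw [this, image_id]
    rwa [h2] at h1

/-- One step from the density of the isolated types and the closed traces: `P₀ B` says that `B` is
small enough to isolate a piece of size at most `ν`. -/
theorem spread_step {X : Set C} {ν : Cardinal.{u}} {Z S : Set (Set C)} {Q : Set C → Prop}
    (Q₀ : Set C → Prop)
    (hDens : ∀ s ∈ Z, ∀ E ∈ S, s ⊆ E → ∃ g ∈ M.G, (∀ a ∈ s, g a = a) ∧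
      ∀ e ⊆ E, #e ≤ ν → ∃ B ⊆ X, Q₀ B ∧ M.Isol B X (g '' e))
    (hCl : ∀ s ∈ Z, ∀ E ∈ S, s ⊆ E → ∃ s' ∈ Z, s ⊆ s' ∧ ∃ E' ∈ S, s' ⊆ E' ∧ E ⊆ E' ∧
      ∀ e ⊆ E', #e ≤ ν → (∃ B ⊆ X, Q₀ B ∧ M.Isol B X e) → ∃ B ⊆ s', Q B ∧ M.Isol B X e)
    (hSG : ∀ g ∈ M.G, ∀ E ∈ S, (g : C → C) '' E ∈ S) :
    ∀ s ∈ Z, ∀ E ∈ S, s ⊆ E → ∃ g ∈ M.G, (∀ a ∈ s, g a = a) ∧ ∃ s' ∈ Z, s ⊆ s' ∧
      ∃ E' ∈ S, s' ⊆ E' ∧ g '' E ⊆ E' ∧
        ∀ e ⊆ E, #e ≤ ν → ∃ B ⊆ s', Q B ∧ M.Isol B X (g '' e) := by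
  intro s hs E hE hsE
  obtain ⟨g, hg, hgs, hiso⟩ := hDens s hs E hE hsE
  obtain ⟨s', hs', hss', E', hE', hsE', hEE', hcl⟩ := hCl s hs (g '' E) (hSG g hg E hE)
    fun a ha => ⟨a, hsE ha, hgs a ha⟩
  exact ⟨g, hg, hgs, s', hs', hss', E', hE', hsE', hEE', fun e he hec =>
    hcl _ ((image_mono he).trans hEE') (mk_image_le.trans hec) (hiso e he hec)⟩

/-- The data of the spreading lemma for pieces of size at most `ν`, with all the traces in the orbit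
of `X₁`. -/
structure Spr (M : PG C) (ν : Cardinal.{u}) (X₁ : Set C) where
  X : Set C
  Z : Set (Set C)
  sub : ∀ z ∈ Z, z ⊆ X
  conj : ∀ z ∈ Z, ∃ k ∈ M.G, k '' z = X₁
  union : ∀ (ι : Type u) [LinearOrder ι] [WellFoundedLT ι] [Nonempty ι], #ι ≤ Order.succ ν →
    ∀ z : ι → Set C, Monotone z → (∀ i, z i ∈ Z) → (⋃ i, z i) ∈ Z
  lim : ∀ (ι : Type u) [LinearOrder ι] [WellFoundedLT ι] [Nonempty ι], #ι ≤ Order.succ ν →
    ∀ z : ι → Set C, Monotone z → (∀ i, z i ∈ Z) → ∀ f : C → C,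
      (∀ i, ∃ g ∈ M.G, ∀ a ∈ z i, g a = f a) → ∃ g ∈ M.G, ∀ i, ∀ a ∈ z i, g a = f a
  step : ∀ s ∈ Z, ∀ E ∈ M.S, s ⊆ E → ∃ g ∈ M.G, (∀ a ∈ s, g a = a) ∧ ∃ s' ∈ Z, s ⊆ s' ∧
    ∃ E' ∈ M.S, s' ⊆ E' ∧ g '' E ⊆ E' ∧
      ∀ e ⊆ E, #e ≤ ν → ∃ B ⊆ s', #B < M.χ ∧ M.Isol B X (g '' e)
  ne : ∃ s₀ ∈ Z, ∃ E₀ ∈ M.S, s₀ ⊆ E₀

/-- A model over `X₁` whose pieces of size at most `ν` are isolated. -/
theorem Spr.exists_model {ν : Cardinal.{u}} {X₁ : Set C} (D : Spr M ν X₁) (hν : ℵ₀ ≤ ν)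
    (hSU : ∀ (ι : Type u) [LinearOrder ι] [WellFoundedLT ι] [Nonempty ι], #ι ≤ Order.succ ν →
      ∀ F : ι → Set C, Monotone F → (∀ i, F i ∈ M.S) → (⋃ i, F i) ∈ M.S) :
    ∃ N ∈ M.S, X₁ ⊆ N ∧ ∀ E ⊆ N, #E ≤ ν → ∃ B ⊆ X₁, #B < M.χ ∧ M.Isol B X₁ E := by
  obtain ⟨s₀, hs₀, E₀, hE₀, hsE₀⟩ := D.ne
  obtain ⟨s, hs, -, E, hE, hsE, -, hiso⟩ := exists_spread hν D.Z M.S (fun B => #B < M.χ)
    (fun g hg E hE => M.S_inv hg hE) hSU D.union D.lim D.step hs₀ hE₀ hsE₀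
  obtain ⟨k, hk, hks⟩ := D.conj s hs
  refine ⟨k '' E, M.S_inv hk hE, ?_, fun e he hec => ?_⟩
  · rw [← hks]
    exact image_mono hsE
  · obtain ⟨B, hB, hBc, hiB⟩ := hiso ((k⁻¹ : Equiv.Perm C) '' e) (by
      rintro _ ⟨a, ha, rfl⟩
      obtain ⟨b, hb, rfl⟩ := he ha
      rw [inv_ap]
      exact hb) (mk_image_le.trans hec)
    refine ⟨k '' B, ?_, small_image k hBc, ?_⟩
    · rw [← hks]
      exact image_mono hB
    · intro g hg hgB A hA hAc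
      obtain ⟨h, hh, h1, h2⟩ := hiB (k⁻¹ * g * k) (M.G.mul_mem (M.G.mul_mem (M.G.inv_mem hk) hg) hk)
        (fun b hb => by
          simp only [Equiv.Perm.mul_apply]
          rw [hgB (k b) (mem_image_of_mem k hb), inv_ap]) ((k⁻¹ : Equiv.Perm C) '' A) (by
          rintro _ ⟨a, ha, rfl⟩
          have h3 := hA ha
          rw [← hks] at h3
          obtain ⟨b, hb, rfl⟩ := h3
          rw [inv_ap]
          exact D.sub s hs hb) (small_image _ hAc)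
      refine ⟨k * h * k⁻¹, M.G.mul_mem (M.G.mul_mem hk hh) (M.G.inv_mem hk), fun a ha => ?_,
        fun a ha => ?_⟩
      · simp only [Equiv.Perm.mul_apply]
        rw [h1 _ (mem_image_of_mem _ ha), ap_inv]
      · simp only [Equiv.Perm.mul_apply]
        rw [h2 _ (mem_image_of_mem _ ha)]
        simp only [Equiv.Perm.mul_apply, ap_inv]

/-- **Atomic models from spreading.** -/
theorem exists_atomic_of_spread (M : PG C) {X₁ : Set C} (hX₁ : #X₁ = M.χ) {ℓ : Cardinal.{u}}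
    (hℓ : ℓ < M.χ) (hχ : ℵ₀ < M.χ)
    (hT : ∀ g ∈ M.G, ∀ R ∈ M.T, (g : C → C) '' R ∈ M.T)
    (hls : ∀ N ∈ M.S, ∀ A ⊆ N, #A < M.χ → ∃ R ∈ M.T, A ⊆ R ∧ R ⊆ N ∧ #R ≤ max #A ℓ)
    (hU : ∀ R : ℕ → Set C, Monotone R → (∀ n, R n ∈ M.T) → #(⋃ n, R n : Set C) = M.χ →
      (⋃ n, R n) ∈ M.S)
    (hSU : ∀ (ι : Type u) [LinearOrder ι] [WellFoundedLT ι] [Nonempty ι], #ι ≤ M.χ →
      ∀ F : ι → Set C, Monotone F → (∀ i, F i ∈ M.S) → (⋃ i, F i) ∈ M.S)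
    (h : ∀ ν, ℵ₀ ≤ ν → ν < M.χ → Nonempty (Spr M ν X₁)) :
    ∃ N, M.Atomic N X₁ := by
  refine exists_atomic_of_dense M hX₁ hℓ hT hls hU fun ν hν => ?_
  obtain ⟨D⟩ := h (max ν ℵ₀) (le_max_right _ _) (max_lt hν hχ)
  obtain ⟨N, hN, hXN, hiso⟩ := D.exists_model (le_max_right _ _) fun ι _ _ _ hι =>
    hSU ι (hι.trans (Order.succ_le_of_lt (max_lt hν hχ)))
  exact ⟨N, hN, hXN, fun E hE hEc => hiso E hE (hEc.trans (le_max_left _ _))⟩

end PG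

end Vale.Agent.P307.R2.H541
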